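import Vale.Agent.P238T.Spec
import Mathlib.Tactic

/-! Part A: the inequality between variations, by layers and Parseval. -/

namespace Vale.Agent.P238T

open Vale.Agent.P238 Finset

section
variable {J : Type*} [Fintype J] {Q : ℕ} [NeZero Q]

/-- Right side minus left side, as a functional of the energy profile. -/
noncomputable def gapT [DecidableEq J] (T : J → ZMod Q) (gs zs : List (J → ZMod Q)) (P S : ℕ)
    (F : (J → ZMod Q) → ℝ) : ℝ :=
  4 * ((∑ j, ∑ c : ZMod Q, F (Pi.single j c)) / (Q * P) + (S : ℝ) ^ 2 * (gs.map F).sum +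
    (Q : ℝ) ^ 2 * (zs.map F).sum) - F T

lemma gapT_lin [DecidableEq J] (T : J → ZMod Q) (gs zs : List (J → ZMod Q)) (P S : ℕ) (t : ℝ)
    (F F' : (J → ZMod Q) → ℝ) :
    gapT T gs zs P S (fun g => F g + t * F' g) =
      gapT T gs zs P S F + t * gapT T gs zs P S F' := by
  have h : ∀ L : List (J → ZMod Q),
      (L.map fun g => F g + t * F' g).sum = (L.map F).sum + t * (L.map F').sum := by
    intro L
    induction L with
    | nil => simp
    | cons a l ih => simp [ih]; ring
  simp only [gapT, Finset.sum_add_distrib, ← Finset.mul_sum, h]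
  ring

lemma gapT_zero [DecidableEq J] (T : J → ZMod Q) (gs zs : List (J → ZMod Q)) (P S : ℕ) :
    gapT T gs zs P S (fun _ => 0) = 0 := by
  simp [gapT]

lemma gapT_sum [DecidableEq J] (T : J → ZMod Q) (gs zs : List (J → ZMod Q)) (P S : ℕ) {ι : Type*}
    (s : Finset ι) (w : ι → ℝ) (F : ι → (J → ZMod Q) → ℝ) :
    gapT T gs zs P S (fun g => ∑ i ∈ s, w i * F i g) =
      ∑ i ∈ s, w i * gapT T gs zs P S (F i) := by
  classical
  induction s using Finset.induction_on with
  | empty => simp [gapT_zero]
  | insert a s ha ih =>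
    simp only [Finset.sum_insert ha]
    rw [← ih, add_comm (w a * gapT T gs zs P S (F a)), ← gapT_lin]
    congr 1; funext g; ring

/-- A linear functional that is nonnegative on the energies of `0/1` functions is nonnegative on
the energies of all functions. -/
lemma layers [DecidableEq J] (Φ : ((J → ZMod Q) → ℝ) → ℝ)
    (hlin : ∀ t F F', Φ (fun g => F g + t * F' g) = Φ F + t * Φ F')
    (h0 : Φ (fun _ => 0) = 0)
    (hbool : ∀ h : (J → ZMod Q) → ℝ, (∀ x, h x = 0 ∨ h x = 1) → 0 ≤ Φ (energy h))
    (f : (J → ZMod Q) → ℝ) : 0 ≤ Φ (energy f) := by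
  induction hn : (univ.image f).card using Nat.strong_induction_on generalizing f with
  | _ n ih =>
  subst hn
  set V := univ.image f with hV
  have hne : V.Nonempty := univ_nonempty.image f
  set m0 := V.min' hne
  by_cases hrest : (V.erase m0).Nonempty
  · set m1 := (V.erase m0).min' hrest
    have hm1 := Finset.min'_mem _ hrest
    have h01 : m0 < m1 :=
      lt_of_le_of_ne (V.min'_le _ (Finset.mem_of_mem_erase hm1)) (Finset.ne_of_mem_erase hm1).symm
    have hmem : ∀ x, f x ∈ V := fun x => Finset.mem_image_of_mem f (mem_univ x)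
    have hval : ∀ x, f x = m0 ∨ m1 ≤ f x := by
      intro x
      by_cases hx : f x = m0
      · exact Or.inl hx
      · exact Or.inr (Finset.min'_le _ _ (Finset.mem_erase.mpr ⟨hx, hmem x⟩))
    let h : (J → ZMod Q) → ℝ := fun x => if m1 ≤ f x then 1 else 0
    let f' : (J → ZMod Q) → ℝ := fun x => max (f x) m1
    have he : ∀ g, energy f g = energy f' g + (m1 - m0) * energy h g := by
      intro g
      simp only [energy, Finset.mul_sum, ← Finset.sum_add_distrib]
      refine Finset.sum_congr rfl fun x _ => ?_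
      rcases hval (x + g) with a | a <;> rcases hval x with b | b
      · simp [h, f', a, b]
      · simp [h, f', a, b, max_eq_right h01.le, not_le.mpr h01]
        rw [abs_sub_comm, abs_of_nonneg (by linarith), abs_sub_comm m1,
          abs_of_nonneg (by linarith)]
        ring
      · simp [h, f', a, b, max_eq_right h01.le, not_le.mpr h01]
        rw [abs_of_nonneg (by linarith), abs_of_nonneg (by linarith)]
        ring
      · simp [h, f', a, b]
    have hlt : (univ.image f').card < V.card := by
      refine lt_of_le_of_lt (Finset.card_le_card ?_) (Finset.card_erase_lt_of_mem (V.min'_mem hne))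
      intro v hv
      obtain ⟨x, -, rfl⟩ := Finset.mem_image.mp hv
      rcases hval x with a | a
      · simp only [f', a, max_eq_right h01.le]; exact hm1
      · simp only [f', max_eq_left a]
        exact Finset.mem_erase.mpr ⟨ne_of_gt (lt_of_lt_of_le h01 a), hmem x⟩
    rw [show energy f = fun g => energy f' g + (m1 - m0) * energy h g from funext he, hlin]
    have h1 := ih _ hlt f' rfl
    have h2 := hbool h (fun x => by by_cases hx : m1 ≤ f x <;> simp [h, hx])
    nlinarith
  · have hc : ∀ x, f x = m0 := fun x => by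
      by_contra hx
      exact hrest ⟨f x, Finset.mem_erase.mpr ⟨hx, Finset.mem_image_of_mem f (mem_univ x)⟩⟩
    have : energy f = fun _ => (0 : ℝ) := funext fun g => by simp [energy, hc]
    rw [this, h0]

lemma gapT_freq [DecidableEq J] (T : J → ZMod Q) (gs zs : List (J → ZMod Q)) (P S : ℕ) (hP : 0 < P)
    (key : ∀ kk : J → ZMod Q, pair kk T ≠ 0 → P ≤ (univ.filter fun j => kk j ≠ 0).card ∨
      (∃ g ∈ gs, Q < S * nrm (pair kk g)) ∨ ∃ z ∈ zs, pair kk z ≠ 0)
    (k : J → ZMod Q) : 0 ≤ gapT T gs zs P S (fun g => mult (pair k g)) := by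
  have hQ : (0 : ℝ) < Q := by exact_mod_cast Nat.pos_of_ne_zero (NeZero.ne Q)
  have hPr : (0 : ℝ) < P := by exact_mod_cast hP
  have e1 : ∀ j c, pair k (Pi.single j c) = k j * c := fun j c => by
    simp [pair, Pi.single_apply]
  simp only [gapT, e1, mult_sum, sub_nonneg]
  set A := (∑ j, if k j = 0 then (0 : ℝ) else 2 * (Q : ℝ)) / (Q * P) with hA
  have hA0 : 0 ≤ A := div_nonneg (Finset.sum_nonneg fun j _ => by split_ifs <;> positivity)
    (by positivity)
  have hnn : ∀ L : List (J → ZMod Q), 0 ≤ (L.map fun g => mult (pair k g)).sum := fun L =>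
    List.sum_nonneg fun x hx => by
      obtain ⟨g, -, rfl⟩ := List.mem_map.mp hx; exact mult_nonneg _
  have hC0 := mul_nonneg (sq_nonneg (S : ℝ)) (hnn gs)
  have hZ0 := mul_nonneg (sq_nonneg (Q : ℝ)) (hnn zs)
  by_cases hs : pair k T = 0
  · have : mult (pair k T) = 0 := by simp [hs, mult]
    linarith
  have h4 : mult (pair k T) ≤ 4 := by
    have := norm_sub_le ((ZMod.stdAddChar : AddChar (ZMod Q) ℂ) (pair k T)) 1
    rw [norm_psi, norm_one] at this
    rw [mult]
    nlinarith [norm_nonneg ((ZMod.stdAddChar : AddChar (ZMod Q) ℂ) (pair k T) - 1)]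
  have hbig : ∀ (L : List (J → ZMod Q)) (R : ℕ), (∃ g ∈ L, Q ≤ R * nrm (pair k g)) →
      1 ≤ (R : ℝ) ^ 2 * (L.map fun g => mult (pair k g)).sum := by
    rintro L R ⟨g, hg, hgR⟩
    have hm : 1 ≤ (R : ℝ) ^ 2 * mult (pair k g) := by
      have h1 := psi_sub_one_ge (pair k g)
      have h2 : (Q : ℝ) ≤ (R : ℝ) * nrm (pair k g) := by exact_mod_cast hgR
      rw [div_le_iff₀ hQ] at h1
      have h3 : (4 : ℝ) ≤ R * ‖(ZMod.stdAddChar : AddChar (ZMod Q) ℂ) (pair k g) - 1‖ := by
        refine le_of_mul_le_mul_right ?_ hQ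
        have := mul_le_mul_of_nonneg_left h1 (Nat.cast_nonneg R : (0 : ℝ) ≤ R)
        nlinarith
      rw [mult, ← mul_pow]
      nlinarith
    refine hm.trans ?_
    gcongr
    exact List.single_le_sum (fun x hx => by
      obtain ⟨g, -, rfl⟩ := List.mem_map.mp hx; exact mult_nonneg _) _
      (List.mem_map.mpr ⟨g, hg, rfl⟩)
  rcases key k hs with h | ⟨g, hg, hgS⟩ | ⟨z, hz, hzne⟩
  · have : 1 ≤ A := by
      rw [hA, le_div_iff₀ (by positivity), Finset.sum_ite, Finset.sum_const_zero, zero_add,
        Finset.sum_const, nsmul_eq_mul]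
      have h' : (P : ℝ) ≤ ((univ.filter fun j => ¬k j = 0).card : ℝ) := by exact_mod_cast h
      nlinarith
    linarith
  · have := hbig gs S ⟨g, hg, hgS.le⟩
    linarith
  · have h1 : 1 ≤ nrm (pair k z) := Nat.pos_of_ne_zero (by
      simpa [nrm, ZMod.valMinAbs_eq_zero] using hzne)
    have := hbig zs Q ⟨z, hz, Nat.le_mul_of_pos_right _ h1⟩
    linarith

end

/-- Part A. -/
theorem poincareT : PoincareStmt := by
  intro J _ _ Q _ T gs zs P S hP key f
  have := layers (gapT T gs zs P S) (gapT_lin T gs zs P S) (gapT_zero T gs zs P S)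
    (fun h hb => ?_) f
  · simpa [gapT] using this
  · rw [show energy h = fun g => ∑ k, ((Fintype.card (J → ZMod Q) : ℝ)⁻¹ * ‖four h k‖ ^ 2) *
        mult (pair k g) from funext fun g => by
      rw [energy_bool h hb g, Finset.mul_sum]; simp only [mul_assoc], gapT_sum]
    exact Finset.sum_nonneg fun k _ =>
      mul_nonneg (by positivity) (gapT_freq T gs zs P S hP key k)

end Vale.Agent.P238T
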