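import Vale.Agent.P238T.Defs
import Vale.Agent.P238.Analytic
import Mathlib.Algebra.BigOperators.Fin
import Mathlib.Tactic

/-! Part B: a frequency that sees the exported class either has large support or is detected by a
block shift. -/

namespace Vale.Agent.P238T

open Vale.Agent.P238 Finset

variable {K Q : ℕ}

lemma sum_cons_split {N l : ℕ} {β : Type*} [AddCommMonoid β] (f : J N (l + 1) → β) :
    ∑ j, f j = ∑ i, ∑ j : J N l, f (Fin.cons i j) := by
  rw [← (Fin.consEquiv fun _ => Fin N).sum_comp, Fintype.sum_prod_type]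
  rfl

lemma ty_of_lt (x : Fin (K + 1)) {i : Fin (K + K)} (h : (i : ℕ) < K) : ty x i = x := by
  obtain ⟨i', rfl⟩ : ∃ i' : Fin K, Fin.castAdd K i' = i := ⟨⟨i, h⟩, Fin.ext rfl⟩
  simp [ty]

lemma ty_ne_of_not_lt (x : Fin (K + 1)) {i : Fin (K + K)} (h : ¬ (i : ℕ) < K) : ty x i ≠ x := by
  obtain ⟨i', rfl⟩ : ∃ i' : Fin K, Fin.natAdd K i' = i :=
    ⟨⟨i - K, by omega⟩, Fin.ext (by simp; omega)⟩
  rw [ty, Fin.addCases_right]
  exact Fin.succAbove_ne x i' 

lemma leafTy_cons (l : ℕ) (x : Fin (K + 1)) (i : Fin (K + K)) (j : J (K + K) l) :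
    leafTy (l + 1) x (Fin.cons i j) = leafTy l (ty x i) j := by
  simp [leafTy]

lemma Tv_cons (l : ℕ) (i : Fin (K + K)) (j : J (K + K) l) :
    (Tv (l + 1) (Fin.cons i j) : ZMod Q) = if (i : ℕ) < K then Tv l j else 0 := by
  simp [Tv]

/-- The exported class lives on leaves of the type of the block. -/
lemma Tv_type : ∀ (l : ℕ) (x : Fin (K + 1)) (j : J (K + K) l),
    (Tv l j : ZMod Q) ≠ 0 → leafTy l x j = x
  | 0, x, j, _ => rfl
  | l + 1, x, j, h => by
    rw [Tv] at h
    split_ifs at h with hi
    · rw [leafTy, ty_of_lt x hi]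
      exact Tv_type l x (Fin.tail j) h
    · exact absurd rfl h

lemma pair_Tv_killed (m : Fin (K + 1) → ℕ) (l : ℕ) (x : Fin (K + 1))
    (kk : J (K + K) l → ZMod Q) (hz : ∀ j, (m (leafTy l x j) : ZMod Q) * kk j = 0) :
    (m x : ZMod Q) * pair kk (Tv l) = 0 := by
  rw [pair, mul_sum]
  refine sum_eq_zero fun j _ => ?_
  by_cases hT : (Tv l j : ZMod Q) = 0
  · simp [hT]
  · have := hz j
    rw [Tv_type l x j hT] at this
    rw [← mul_assoc, this, zero_mul]

/-- A nonzero residue killed by `D` is at least `Q / D` away from zero. -/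
lemma nrm_ge_of_killed [NeZero Q] {D : ℕ} (hD0 : 0 < D) {v : ZMod Q} (hv : v ≠ 0)
    (hD : (D : ZMod Q) * v = 0) : Q ≤ D * nrm v := by
  have h1 : ((((D : ℤ) * v.valMinAbs : ℤ)) : ZMod Q) = 0 := by
    simp [ZMod.coe_valMinAbs, hD]
  have h2 := (ZMod.intCast_zmod_eq_zero_iff_dvd _ _).1 h1
  have h3 : Q ∣ D * nrm v := by
    have := Int.natAbs_dvd_natAbs.2 h2
    simpa [nrm, Int.natAbs_mul] using this
  refine Nat.le_of_dvd (Nat.mul_pos hD0 (Nat.pos_of_ne_zero ?_)) h3
  simpa [nrm, ZMod.valMinAbs_eq_zero] using hv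

theorem keyT [NeZero Q] {q g S : ℕ} (m : Fin (K + 1) → ℕ) (hq : ∀ y, m y ≤ q)
    (h2 : ∀ y, 2 ≤ m y) (hco : ∀ y z, y ≠ z → (m y).Coprime (m z)) (hS : q ^ g < S) :
    ∀ (l : ℕ) (x : Fin (K + 1)) (kk : J (K + K) l → ZMod Q),
      (∀ j, (m (leafTy l x j) : ZMod Q) * kk j = 0) → pair kk (Tv l) ≠ 0 →
      g ^ l ≤ (univ.filter fun j => kk j ≠ 0).card ∨
        ∃ h ∈ gensT l, Q < S * nrm (pair kk h) := by
  classical
  intro l
  induction l with
  | zero =>
    intro x kk _ hT
    left
    obtain ⟨j, -, hj⟩ := exists_ne_zero_of_sum_ne_zero hT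
    rw [pow_zero]
    exact card_pos.2 ⟨j, mem_filter.2 ⟨mem_univ _, left_ne_zero_of_mul hj⟩⟩
  | succ l ih =>
    intro x kk hz hT
    let kki : Fin (K + K) → J (K + K) l → ZMod Q := fun i j => kk (Fin.cons i j)
    have hzi : ∀ i j, (m (leafTy l (ty x i) j) : ZMod Q) * kki i j = 0 := fun i j => by
      simpa [leafTy_cons, kki] using hz (Fin.cons i j)
    let h : Fin (K + K) → ZMod Q := fun i => pair (kki i) (Tv l)
    have hkill : ∀ i, (m (ty x i) : ZMod Q) * h i = 0 := fun i =>
      pair_Tv_killed m l (ty x i) (kki i) (hzi i)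
    have hu : pair kk (Tv (l + 1)) = ∑ i : Fin (K + K), if (i : ℕ) < K then h i else 0 := by
      rw [pair, sum_cons_split]
      refine sum_congr rfl fun i _ => ?_
      by_cases hi : (i : ℕ) < K <;> simp [Tv_cons, hi, h, kki, pair]
    have hv : pair kk (av l) = ∑ i, h i := by
      rw [pair, sum_cons_split]
      refine sum_congr rfl fun i _ => ?_
      simp [av, h, kki, pair]
    by_cases hb : (univ.filter fun i => h i ≠ 0).card ≤ g
    · -- the shift of this block sees the relation
      right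
      refine ⟨av l, by simp [gensT], ?_⟩
      set s := univ.filter fun i => h i ≠ 0
      set D := ∏ i ∈ s, m (ty x i)
      have hDv : (D : ZMod Q) * pair kk (av l) = 0 := by
        rw [hv, mul_sum]
        refine sum_eq_zero fun i _ => ?_
        by_cases hi : h i = 0
        · rw [hi, mul_zero]
        · obtain ⟨r, hr⟩ : m (ty x i) ∣ D := dvd_prod_of_mem _ (mem_filter.2 ⟨mem_univ _, hi⟩)
          rw [hr, Nat.cast_mul, mul_right_comm, hkill i, zero_mul]
      have hne : pair kk (av l) ≠ 0 := by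
        intro h0
        apply hT
        set M := ∏ y ∈ univ.erase x, m y with hM
        have hMh : ∀ i : Fin (K + K), ¬ (i : ℕ) < K → (M : ZMod Q) * h i = 0 := fun i hi => by
          obtain ⟨r, hr⟩ : m (ty x i) ∣ M :=
            dvd_prod_of_mem _ (mem_erase.2 ⟨ty_ne_of_not_lt x hi, mem_univ _⟩)
          rw [hr, Nat.cast_mul, mul_right_comm, hkill i, zero_mul]
        have e1 : (M : ZMod Q) * pair kk (Tv (l + 1)) = 0 := by
          have : (M : ZMod Q) * pair kk (Tv (l + 1)) = (M : ZMod Q) * pair kk (av l) := by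
            rw [hu, hv, mul_sum, mul_sum]
            refine sum_congr rfl fun i _ => ?_
            by_cases hi : (i : ℕ) < K
            · rw [if_pos hi]
            · rw [if_neg hi, mul_zero, hMh i hi]
          rw [this, h0, mul_zero]
        have e2 : (m x : ZMod Q) * pair kk (Tv (l + 1)) = 0 := pair_Tv_killed m (l + 1) x kk hz
        have hcop : M.Coprime (m x) :=
          Nat.Coprime.prod_left fun y hy => hco y x (mem_erase.1 hy).1
        have hbez : ((M : ZMod Q)) * ((Nat.gcdA M (m x) : ℤ) : ZMod Q) +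
            (m x : ZMod Q) * ((Nat.gcdB M (m x) : ℤ) : ZMod Q) = 1 := by
          have := congrArg (fun t : ℤ => (t : ZMod Q)) (Nat.gcd_eq_gcd_ab M (m x))
          simp only [hcop.gcd_eq_one] at this
          push_cast at this
          exact this.symm
        calc pair kk (Tv (l + 1)) = ((M : ZMod Q) * ((Nat.gcdA M (m x) : ℤ) : ZMod Q) +
              (m x : ZMod Q) * ((Nat.gcdB M (m x) : ℤ) : ZMod Q)) * pair kk (Tv (l + 1)) := by
              rw [hbez, one_mul]
          _ = 0 := by rw [add_mul, mul_right_comm, e1, mul_right_comm, e2]; simp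
      have hDq : D ≤ q ^ g := by
        refine le_trans (prod_le_pow_card _ _ _ fun i _ => hq _) ?_
        exact Nat.pow_le_pow_right (le_trans (by norm_num) (le_trans (h2 x) (hq x))) hb
      have hQ := nrm_ge_of_killed (prod_pos fun i _ => by have := h2 (ty x i); omega) hne hDv
      have hpos : 0 < nrm (pair kk (av l)) := by
        refine Nat.pos_of_ne_zero ?_
        simpa [nrm, ZMod.valMinAbs_eq_zero] using hne
      exact lt_of_le_of_lt (hQ.trans (Nat.mul_le_mul_right _ hDq))
        (Nat.mul_lt_mul_of_pos_right hS hpos)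
    · -- many children with nonzero class
      by_cases hg : ∃ h ∈ gensT (l + 1), Q < S * nrm (pair kk h)
      · exact Or.inr hg
      left
      have hchild : ∀ i, h i ≠ 0 → g ^ l ≤ (univ.filter fun j => kki i j ≠ 0).card := by
        intro i hi
        refine (ih (ty x i) (kki i) (hzi i) hi).resolve_right ?_
        rintro ⟨w, hw, hlt⟩
        refine hg ⟨fun j => if j 0 = i then w (Fin.tail j) else 0,
          List.mem_cons_of_mem _ (List.mem_flatMap.2
            ⟨i, List.mem_finRange i, List.mem_map.2 ⟨w, hw, rfl⟩⟩), ?_⟩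
        have e : pair kk (fun j => if j 0 = i then w (Fin.tail j) else 0) = pair (kki i) w := by
          rw [pair, sum_cons_split, sum_eq_single i]
          · simp [pair, kki]
          · intro i' _ hi'
            simp [hi']
          · simp
        rwa [e]
      calc g ^ (l + 1) = g * g ^ l := pow_succ' g l
        _ ≤ (univ.filter fun i => h i ≠ 0).card * g ^ l := Nat.mul_le_mul_right _ (by omega)
        _ = ∑ _i ∈ univ.filter (fun i => h i ≠ 0), g ^ l := by simp
        _ ≤ ∑ i ∈ univ.filter (fun i => h i ≠ 0), (univ.filter fun j => kki i j ≠ 0).card :=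
            sum_le_sum fun i hi => hchild i (by simpa using hi)
        _ ≤ ∑ i, (univ.filter fun j => kki i j ≠ 0).card :=
            sum_le_sum_of_subset (filter_subset _ _)
        _ = (univ.filter fun j => kk j ≠ 0).card := by
            simp only [card_filter, kki]
            rw [sum_cons_split]

end Vale.Agent.P238T
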