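import Vale.Agent.P238T.Key
import Mathlib.Tactic

/-! Part C: translating a block by its exported class moves a positive fraction of it. -/

namespace Vale.Agent.P238T

open Vale.Agent.P238 Finset

variable {K Q : ℕ} [NeZero K] {q : ℕ} [NeZero q] {E : ℕ} {l : ℕ}

instance : NeZero (K + K) := ⟨by have := NeZero.pos K; omega⟩

lemma slotT_child (φ : J (K + K) (l + 1) → ZMod Q) (p : ℕ) (i : Fin (K + K)) (e : ℕ)
    (hp : p / nSlots (K + K) E l = e * (K + K) + (i : ℕ)) :
    slotT E (l + 1) φ p =
      ((Fin.cons i (slotT E l (fun j => φ (Fin.cons i j) + (e : ZMod Q) * Tv l j)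
          (p % nSlots (K + K) E l)).1 : J (K + K) (l + 1)),
        (slotT E l (fun j => φ (Fin.cons i j) + (e : ZMod Q) * Tv l j)
          (p % nSlots (K + K) E l)).2) := by
  have hi : (⟨p / nSlots (K + K) E l % (K + K), Nat.mod_lt _ (NeZero.pos (K + K))⟩ :
      Fin (K + K)) = i := Fin.ext (by simp [hp, Nat.mod_eq_of_lt i.isLt])
  have he : p / ((K + K) * nSlots (K + K) E l) = e := by
    rw [mul_comm, ← Nat.div_div_eq_div_mul, hp, mul_comm e (K + K),
      Nat.mul_add_div (NeZero.pos (K + K)), Nat.div_eq_of_lt i.isLt, add_zero]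
  simp only [slotT, hi, he]

lemma symbT_child (m : Fin (K + 1) → ℕ) (x : Fin (K + 1)) (φ : J (K + K) (l + 1) → ZMod Q)
    (p : ℕ) (i : Fin (K + K)) (e : ℕ)
    (hp : p / nSlots (K + K) E l = e * (K + K) + (i : ℕ)) :
    symbT m q E x (l + 1) φ p =
      ((Fin.cons i (symbT m q E (ty x i) l (fun j => φ (Fin.cons i j) + (e : ZMod Q) * Tv l j)
          (p % nSlots (K + K) E l)).1 : J (K + K) (l + 1)),
        (symbT m q E (ty x i) l (fun j => φ (Fin.cons i j) + (e : ZMod Q) * Tv l j)
          (p % nSlots (K + K) E l)).2) := by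
  simp only [symbT, slotT_child φ p i e hp, leafTy_cons]

/-- Equal residues modulo a divisor of `Q`. -/
lemma dvd_of_symb_eq [NeZero Q] {d : ℕ} (hd0 : 0 < d) (hdQ : d ∣ Q) (hdq : d ≤ q) {v w : ZMod Q}
    {c : ℤ} (hc : v = w + (c : ZMod Q))
    (h : Fin.ofNat q (v.val % d) = Fin.ofNat q (w.val % d)) : (d : ℤ) ∣ c := by
  have h0 : v.val % d = w.val % d := by
    have := congrArg Fin.val h
    simp only [Fin.val_ofNat] at this
    rwa [Nat.mod_eq_of_lt ((Nat.mod_lt _ hd0).trans_le hdq),
      Nat.mod_eq_of_lt ((Nat.mod_lt _ hd0).trans_le hdq)] at this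
  have h1 : (Q : ℤ) ∣ (v.val : ℤ) - (w.val : ℤ) - c := by
    rw [← ZMod.intCast_zmod_eq_zero_iff_dvd]
    push_cast
    rw [ZMod.natCast_zmod_val, ZMod.natCast_zmod_val, hc]
    ring
  have h2 : (d : ℤ) ∣ (v.val : ℤ) - (w.val : ℤ) := by
    have e : (w.val : ℕ) ≡ v.val [MOD d] := h0.symm
    exact Nat.modEq_iff_dvd.1 e
  have h3 := h2.sub ((Int.natCast_dvd_natCast.2 hdQ).trans h1)
  simpa using h3

/-- At most `K / 2` of the moduli divide a small nonzero shift. -/
lemma card_dvd_le {m : Fin (K + 1) → ℕ} (h2 : ∀ y, 2 ≤ m y)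
    (hco : ∀ y z, y ≠ z → (m y).Coprime (m z)) (hE : E < 2 ^ (K / 2)) {t : ℤ} (ht : t ≠ 0)
    (htE : t.natAbs < E) :
    (univ.filter fun y => (m y : ℤ) ∣ t).card ≤ K / 2 := by
  set s := univ.filter fun y => (m y : ℤ) ∣ t with hs
  have hdvd : (∏ y ∈ s, m y) ∣ t.natAbs := by
    refine Finset.prod_dvd_of_isRelPrime (fun y _ z _ hyz => ?_) fun y hy => ?_
    · simp only [Function.onFun, ← Nat.coprime_iff_isRelPrime]
      exact hco y z hyz
    · exact Int.natCast_dvd.1 (mem_filter.1 hy).2
  have hle := Nat.le_of_dvd (Int.natAbs_pos.2 ht) hdvd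
  have hpow : 2 ^ s.card ≤ ∏ y ∈ s, m y := pow_card_le_prod _ _ _ fun y _ => h2 y
  exact le_of_lt ((Nat.pow_lt_pow_iff_right (by norm_num : 1 < 2)).1 (by omega))

/-- In a matching of two translated copies, the matched share is at most `1 - 8^(-l)`. -/
theorem matchT [NeZero Q] {m : Fin (K + 1) → ℕ} (hm : Moduli m Q q E) (hN : 4 ≤ K + K)
    (hE : 0 < E) (x : Fin (K + 1)) (φ ψ : J (K + K) l → ZMod Q) (T : ℤ)
    (hT : ¬ (m x : ℤ) ∣ T) (hψ : ∀ j, ψ j = φ j + (T : ZMod Q) * Tv l j) (M : Finset (ℕ × ℕ))
    (hM : IsMatching (nSlots (K + K) E l) (symbT m q E x l ψ) (symbT m q E x l φ) M) :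
    nSlots (K + K) E l + 8 ^ l * M.card ≤ 8 ^ l * nSlots (K + K) E l := by
  induction l generalizing x T M with
  | zero =>
    have : M = ∅ := by
      rw [eq_empty_iff_forall_notMem]
      intro z hz
      obtain ⟨-, -, h⟩ := hM.1 z hz
      refine hT (dvd_of_symb_eq (by have := hm.two_le x; omega) (hm.dvd_Q x) (hm.le_q x)
        (v := ψ Fin.elim0) (w := φ Fin.elim0) (by rw [hψ]; simp [Tv]) ?_)
      simpa [symbT, slotT, leafTy] using congrArg Prod.snd h
    simp [this, nSlots]
  | succ l ih =>
    classical
    set c := nSlots (K + K) E l with hc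
    have hc0 : 0 < c := pow_pos (Nat.mul_pos hE (NeZero.pos (K + K))) l
    have hn : nSlots (K + K) E (l + 1) = E * ((K + K) * c) := by rw [hc, nSlots, nSlots, pow_succ]; ring
    rw [hn] at hM ⊢
    set A := (K + K) * c with hA
    have hA0 : 0 < A := Nat.mul_pos (NeZero.pos (K + K)) hc0
    have hrep : ∀ p, p / A = p / c / (K + K) := fun p => by
      rw [Nat.div_div_eq_div_mul, mul_comm c (K + K)]
    set Me : ℕ → Finset (ℕ × ℕ) := fun e => M.filter fun z => z.1 / A = e with hMe
    have hsplit : M.card = ∑ e ∈ range E, (Me e).card :=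
      card_eq_sum_card_fiberwise fun z hz => by
        have hz' := (hM.1 z hz).1
        simp only [mem_coe, mem_range]
        rw [Nat.div_lt_iff_lt_mul hA0]
        exact hz'
    have hinj : ∀ z ∈ M, ∀ w ∈ M, z.1 = w.1 → z = w := fun z hz w hw e => by
      have h1 := hM.2 z hz w hw
      have h2 := hM.2 w hw z hz
      exact Prod.ext e (by omega)
    have hchild : ∀ z ∈ M, z.1 / c % (K + K) = z.2 / c % (K + K) := fun z hz => by
      have h := congrArg (fun x : J (K + K) (l + 1) × Fin q => ((x.1 0 : Fin (K + K)) : ℕ)) (hM.1 z hz).2.2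
      simpa [symbT, slotT, hc] using h
    have hle : ∀ e, (Me e).card ≤ A := fun e => by
      refine (card_le_card_of_injOn (t := Ico (e * A) ((e + 1) * A)) Prod.fst ?_ ?_).trans
        (by simp [add_mul])
      · intro z hz
        simp only [hMe, coe_filter, Set.mem_ofPred_eq] at hz
        simp only [coe_Ico, Set.mem_Ico, ← hz.2]
        exact ⟨Nat.div_mul_le_self _ _, Nat.lt_mul_div_succ _ hA0 |>.trans_eq (mul_comm _ _)⟩
      · intro z hz w hw
        simp only [hMe, coe_filter, Set.mem_ofPred_eq] at hz hw
        exact hinj z hz.1 w hw.1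
    set multi : ℕ → Prop := fun e => ∃ z ∈ Me e, ∃ w ∈ Me e, z.1 < w.1 ∧ z.2 / A ≠ w.2 / A
    -- a repetition matched to a single one
    have hsingle : ∀ e < E, ¬ multi e → 8 ^ (l + 1) * (Me e).card + 2 * A ≤ 8 ^ (l + 1) * A := by
      intro e he hmu
      obtain ⟨e0, he0, hall⟩ : ∃ e0 < E, ∀ z ∈ Me e, z.2 / A = e0 := by
        rcases (Me e).eq_empty_or_nonempty with h0 | ⟨z, hz⟩
        · exact ⟨e, he, by simp [h0]⟩
        refine ⟨z.2 / A, (Nat.div_lt_iff_lt_mul hA0).2 (hM.1 z (mem_filter.1 hz).1).2.1,
          fun w hw => ?_⟩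
        by_contra hne
        rcases lt_trichotomy z.1 w.1 with h | h | h
        · exact hmu ⟨z, hz, w, hw, h, Ne.symm hne⟩
        · exact hne (by rw [hinj z (mem_filter.1 hz).1 w (mem_filter.1 hw).1 h])
        · exact hmu ⟨w, hw, z, hz, h, hne⟩
      set far : Finset (Fin (K + K)) :=
        univ.filter fun i => ¬ (m (ty x i) : ℤ) ∣
          (if (i : ℕ) < K then T else 0) + ((e : ℤ) - (e0 : ℤ))
      have hfar : (K + K) ≤ 4 * far.card := by
        set t : ℤ := (e : ℤ) - (e0 : ℤ) with ht
        by_cases hx : (m x : ℤ) ∣ T + t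
        · -- only the children of other types can be far; few of their moduli divide `t`
          have ht0 : t ≠ 0 := fun h0 => hT (by simpa [h0] using hx)
          have hd' := card_dvd_le hm.two_le hm.coprime hm.E_lt ht0 (by rw [ht]; omega)
          set g : Fin K → Fin (K + K) := fun j => Fin.natAdd K j
          have h1 : ((univ : Finset (Fin K)).filter fun j =>
              ¬ (m (x.succAbove j) : ℤ) ∣ t).card ≤ far.card := by
            refine card_le_card_of_injOn g (fun j hj => ?_) fun j _ j' _ h => ?_
            · simp only [coe_filter, mem_univ, true_and, Set.mem_ofPred_eq] at hj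
              simp only [far, g, coe_filter, mem_univ, true_and, Set.mem_ofPred_eq]
              rw [if_neg (by simp), zero_add, show ty x (Fin.natAdd K j) = x.succAbove j from
                Fin.addCases_right _]
              exact hj
            · simpa [g, Fin.ext_iff] using h
          have h2 : ((univ : Finset (Fin K)).filter fun j =>
              (m (x.succAbove j) : ℤ) ∣ t).card ≤ K / 2 := by
            refine le_trans (card_le_card_of_injOn x.succAbove (fun j hj => ?_)
              Fin.succAbove_right_injective.injOn) hd'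
            simpa using hj
          have h3 := card_filter_add_card_filter_not (s := (univ : Finset (Fin K)))
            (fun j => (m (x.succAbove j) : ℤ) ∣ t)
          simp only [card_univ, Fintype.card_fin] at h3
          omega
        · -- all children of the type of the block are far
          have h1 : (univ : Finset (Fin K)).card ≤ far.card := by
            refine card_le_card_of_injOn (Fin.castAdd K) (fun j _ => ?_) fun j _ j' _ h => ?_
            · simp only [far, coe_filter, mem_univ, true_and, Set.mem_ofPred_eq]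
              rw [if_pos (by simp), show ty x (Fin.castAdd K j) = x from Fin.addCases_left _]
              exact hx
            · simpa [Fin.ext_iff] using h
          simp only [card_univ, Fintype.card_fin] at h1
          omega
      have hi : ∀ i : Fin (K + K), 8 ^ l * ((Me e).filter fun z => z.1 / c % (K + K) = (i : ℕ)).card +
          (if i ∈ far then c else 0) ≤ 8 ^ l * c := by
        intro i
        set Mi := (Me e).filter fun z => z.1 / c % (K + K) = (i : ℕ) with hMi
        have hdec : ∀ z ∈ Mi, z ∈ M ∧ z.1 / c = e * (K + K) + (i : ℕ) ∧ z.2 / c = e0 * (K + K) + (i : ℕ) := by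
          intro z hz
          obtain ⟨hz', hzi⟩ := mem_filter.1 hz
          obtain ⟨hzM, hze⟩ := mem_filter.1 hz'
          have h0 := hall z hz'
          rw [hrep] at hze h0
          refine ⟨hzM, ?_, ?_⟩
          · rw [← Nat.div_add_mod' (z.1 / c) (K + K), hze, hzi]
          · rw [← Nat.div_add_mod' (z.2 / c) (K + K), h0, ← hchild z hzM, hzi]
        have hmono : ∀ x y, x / c = y / c → (x % c < y % c ↔ x < y) := fun x y hxy => by
          have := Nat.div_add_mod x c
          have := Nat.div_add_mod y c
          rw [hxy] at *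
          omega
        set M' := Mi.image fun z => (z.1 % c, z.2 % c)
        have hcard : M'.card = Mi.card := card_image_of_injOn fun z hz w hw h => by
          obtain ⟨hzM, hz1, -⟩ := hdec z hz
          obtain ⟨hwM, hw1, -⟩ := hdec w hw
          refine hinj z hzM w hwM ?_
          have := Nat.div_add_mod z.1 c
          have := Nat.div_add_mod w.1 c
          rw [hz1] at *
          rw [hw1] at *
          have := congrArg Prod.fst h
          omega
        split_ifs with hif
        · rw [add_comm, ← hcard]
          refine ih (ty x i) (fun j => φ (Fin.cons i j) + (e0 : ZMod Q) * Tv l j)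
            (fun j => ψ (Fin.cons i j) + (e : ZMod Q) * Tv l j) _ (mem_filter.1 hif).2
            (fun j => by
              simp only [hψ, Tv_cons]
              split_ifs <;> push_cast <;> ring) M' ⟨?_, ?_⟩
          · simp only [M', forall_mem_image]
            intro z hz
            obtain ⟨hzM, hz1, hz2⟩ := hdec z hz
            refine ⟨Nat.mod_lt _ hc0, Nat.mod_lt _ hc0, ?_⟩
            have h := (hM.1 z hzM).2.2
            rw [symbT_child m x ψ z.1 i e hz1, symbT_child m x φ z.2 i e0 hz2, Prod.mk.injEq,
              Fin.cons_inj] at h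
            exact Prod.ext h.1.2 h.2
          · simp only [M', forall_mem_image]
            intro z hz w hw
            obtain ⟨hzM, hz1, hz2⟩ := hdec z hz
            obtain ⟨hwM, hw1, hw2⟩ := hdec w hw
            rw [hmono _ _ (hz1.trans hw1.symm), hmono _ _ (hz2.trans hw2.symm)]
            exact hM.2 z hzM w hwM
        · rw [add_zero, ← hcard]
          refine Nat.mul_le_mul_left _ ((card_le_card_of_injOn (t := range c) Prod.fst ?_ ?_).trans
            (card_range c).le)
          · intro x hx
            obtain ⟨z, -, rfl⟩ := mem_image.1 hx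
            simpa using Nat.mod_lt _ hc0
          · intro x hx y hy h
            obtain ⟨z, hz, rfl⟩ := mem_image.1 hx
            obtain ⟨w, hw, rfl⟩ := mem_image.1 hy
            obtain ⟨hzM, hz1, -⟩ := hdec z hz
            obtain ⟨hwM, hw1, -⟩ := hdec w hw
            have hzw : z.1 = w.1 := by
              rw [← Nat.div_add_mod z.1 c, ← Nat.div_add_mod w.1 c, hz1, hw1]
              simpa using h
            rw [hinj z hzM w hwM hzw]
      have hsum := sum_le_sum (s := (univ : Finset (Fin (K + K)))) fun i _ => hi i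
      rw [sum_add_distrib, ← mul_sum, sum_ite_mem, univ_inter, sum_const, smul_eq_mul, sum_const,
        card_univ, Fintype.card_fin, smul_eq_mul] at hsum
      have hMsum : (Me e).card =
          ∑ i : Fin (K + K), ((Me e).filter fun z => z.1 / c % (K + K) = (i : ℕ)).card := by
        rw [card_eq_sum_card_fiberwise (t := (univ : Finset (Fin (K + K))))
          (f := fun z => (⟨z.1 / c % (K + K), Nat.mod_lt _ (NeZero.pos (K + K))⟩ : Fin (K + K)))
          fun _ _ => mem_coe.2 (mem_univ _)]
        simp [Fin.ext_iff]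
      rw [← hMsum] at hsum
      have : A ≤ 4 * (far.card * c) := by rw [hA]; nlinarith
      rw [pow_succ', hA] at *
      linarith
    -- the gaps left by repetitions matched to several
    have hgap : ∀ e, multi e → ∃ z ∈ Me e, ∃ w ∈ Me e, z.1 < w.1 ∧
        (∀ y ∈ M, ¬ (z.1 < y.1 ∧ y.1 < w.1)) ∧ A - c ≤ (Ioo z.2 w.2).card := by
      intro e hm
      have hP : ((Me e ×ˢ Me e).filter fun x => x.1.1 < x.2.1 ∧ x.1.2 / A ≠ x.2.2 / A).Nonempty := by
        obtain ⟨z, hz, w, hw, h⟩ := hm
        exact ⟨(z, w), by simp [hz, hw, h]⟩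
      obtain ⟨⟨z, w⟩, hx, hmin⟩ := exists_min_image _ (fun x => x.2.1 - x.1.1) hP
      simp only [mem_filter, mem_product] at hx hmin
      obtain ⟨⟨hz, hw⟩, hlt, hne⟩ := hx
      obtain ⟨hzM, hze⟩ := mem_filter.1 hz
      obtain ⟨hwM, hwe⟩ := mem_filter.1 hw
      refine ⟨z, hz, w, hw, hlt, fun y hy hyzw => ?_, ?_⟩
      · have hye : y ∈ Me e := mem_filter.2 ⟨hy, le_antisymm
          ((Nat.div_le_div_right hyzw.2.le).trans_eq hwe)
          (hze.symm.trans_le (Nat.div_le_div_right hyzw.1.le))⟩
        by_cases hzy : z.2 / A = y.2 / A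
        · have h : w.1 - z.1 ≤ w.1 - y.1 := hmin (y, w) ⟨⟨hye, hw⟩, hyzw.2, hzy ▸ hne⟩
          omega
        · have h : w.1 - z.1 ≤ y.1 - z.1 := hmin (z, y) ⟨⟨hz, hye⟩, hyzw.1, hzy⟩
          omega
      · rw [Nat.card_Ioo]
        have hlt2 : z.2 < w.2 := (hM.2 z hzM w hwM).1 hlt
        have hdd : z.2 / c / (K + K) < w.2 / c / (K + K) := by
          rw [← hrep, ← hrep]
          exact lt_of_le_of_ne (Nat.div_le_div_right hlt2.le) hne
        have hii : z.2 / c % (K + K) ≤ w.2 / c % (K + K) := by
          rw [← hchild z hzM, ← hchild w hwM]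
          have h1 := Nat.div_add_mod (z.1 / c) (K + K)
          have h2 := Nat.div_add_mod (w.1 / c) (K + K)
          have h3 := Nat.div_le_div_right (c := c) hlt.le
          have h4 : z.1 / c / (K + K) = w.1 / c / (K + K) := by rw [← hrep, ← hrep, hze, hwe]
          rw [h4] at h1
          omega
        have hblock : z.2 / c + (K + K) ≤ w.2 / c := by
          have h1 := Nat.div_add_mod (z.2 / c) (K + K)
          have h2 := Nat.div_add_mod (w.2 / c) (K + K)
          have h3 : (K + K) * (z.2 / c / (K + K) + 1) ≤ (K + K) * (w.2 / c / (K + K)) := Nat.mul_le_mul_left (K + K) hdd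
          rw [mul_add, mul_one] at h3
          omega
        have h5 : c * (z.2 / c + (K + K)) ≤ c * (w.2 / c) := Nat.mul_le_mul_left c hblock
        have h6 := Nat.mul_div_le w.2 c
        have h7 := Nat.lt_mul_div_succ z.2 hc0
        rw [mul_add, mul_comm c (K + K), ← hA] at h5
        rw [mul_add, mul_one] at h7
        omega
    choose zf hzf wf hwf hlf hnf hcf using hgap
    set single := (range E).filter fun e => ¬ multi e
    set mult := (range E).filter fun e => multi e
    have hcnt : mult.card + single.card = E :=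
      (card_filter_add_card_filter_not _).trans (card_range E)
    have h1 : 8 ^ (l + 1) * M.card + 2 * A * single.card ≤ 8 ^ (l + 1) * (E * A) := by
      have hs : ∑ e ∈ range E, (8 ^ (l + 1) * (Me e).card + if ¬ multi e then 2 * A else 0) ≤
          ∑ _e ∈ range E, 8 ^ (l + 1) * A := sum_le_sum fun e he => by
        split_ifs with h
        · exact (Nat.add_zero _).trans_le (Nat.mul_le_mul_left _ (hle e))
        · exact hsingle e (mem_range.1 he) h
      rw [sum_add_distrib, ← mul_sum, ← hsplit, ← sum_filter, sum_const, sum_const, card_range,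
        smul_eq_mul, smul_eq_mul] at hs
      linarith
    have h2 : M.card + mult.card * (A - c) ≤ E * A := by
      let G : mult → Finset ℕ := fun e =>
        Ioo (zf e.1 (mem_filter.1 e.2).2).2 (wf e.1 (mem_filter.1 e.2).2).2
      have hdisj : Disjoint (M.image Prod.snd) (univ.biUnion G) := by
        rw [disjoint_left]
        intro x hx hx'
        obtain ⟨y, hy, rfl⟩ := mem_image.1 hx
        obtain ⟨e, -, he⟩ := mem_biUnion.1 hx'
        have hm := (mem_filter.1 e.2).2
        simp only [G, mem_Ioo] at he
        exact hnf e.1 hm y hy ⟨(hM.2 _ (mem_filter.1 (hzf e.1 hm)).1 y hy).2 he.1,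
          (hM.2 y hy _ (mem_filter.1 (hwf e.1 hm)).1).2 he.2⟩
      have hG : mult.card * (A - c) ≤ (univ.biUnion G).card := by
        rw [card_biUnion]
        · calc mult.card * (A - c) = ∑ _e : mult, (A - c) := by simp
            _ ≤ _ := sum_le_sum fun e _ => hcf e.1 (mem_filter.1 e.2).2
        · have hord : ∀ e f : mult, e.1 < f.1 → Disjoint (G e) (G f) := fun e f hef => by
            have hme := (mem_filter.1 e.2).2
            have hmf := (mem_filter.1 f.2).2
            obtain ⟨hwM, hwe⟩ := mem_filter.1 (hwf e.1 hme)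
            obtain ⟨hzM, hze⟩ := mem_filter.1 (hzf f.1 hmf)
            have hlt : (wf e.1 hme).1 < (zf f.1 hmf).1 := by
              by_contra hcon
              have := Nat.div_le_div_right (c := A) (not_lt.1 hcon)
              omega
            have := (hM.2 _ hwM _ hzM).1 hlt
            rw [disjoint_left]
            intro x hx hx'
            simp only [G, mem_Ioo] at hx hx'
            omega
          intro e _ f _ hef
          rcases lt_or_gt_of_ne (fun h => hef (Subtype.ext h) : e.1 ≠ f.1) with h | h
          exacts [hord e f h, (hord f e h).symm]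
      have hsub : M.image Prod.snd ∪ univ.biUnion G ⊆ range (E * A) := by
        intro x hx
        rcases mem_union.1 hx with hx | hx
        · obtain ⟨y, hy, rfl⟩ := mem_image.1 hx
          exact mem_range.2 (hM.1 y hy).2.1
        · obtain ⟨e, -, he⟩ := mem_biUnion.1 hx
          simp only [G, mem_Ioo] at he
          exact mem_range.2 (he.2.trans (hM.1 _ (mem_filter.1 (hwf e.1 (mem_filter.1 e.2).2)).1).2.1)
      have himg : (M.image Prod.snd).card = M.card := card_image_of_injOn fun z hz w hw h => by
        refine hinj z hz w hw ?_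
        have h1 := hM.2 z hz w hw
        have h2 := hM.2 w hw z hz
        omega
      have := card_le_card hsub
      rw [card_union_of_disjoint hdisj, himg, card_range] at this
      omega
    have h4 : 3 * A ≤ 4 * (A - c) := by
      have : 4 * c ≤ (K + K) * c := Nat.mul_le_mul_right _ hN
      omega
    rcases le_total mult.card single.card with h | h
    · have h8 : E * A ≤ 2 * (A * single.card) := by
        calc E * A ≤ (2 * single.card) * A := Nat.mul_le_mul_right _ (by omega)
          _ = _ := by ring
      linarith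
    · have h5 : 8 ^ (l + 1) * M.card + 8 * (mult.card * (A - c)) ≤ 8 ^ (l + 1) * (E * A) := by
        have h6 := Nat.mul_le_mul_left (8 ^ (l + 1)) h2
        have h7 : 8 * (mult.card * (A - c)) ≤ 8 ^ (l + 1) * (mult.card * (A - c)) :=
          Nat.mul_le_mul_right _ (Nat.le_self_pow (by omega) 8)
        rw [mul_add] at h6
        omega
      have h8 : E * A ≤ 2 * mult.card * A := Nat.mul_le_mul_right _ (by omega)
      have h9 : mult.card * (3 * A) ≤ mult.card * (4 * (A - c)) := Nat.mul_le_mul_left _ h4
      linarith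

end Vale.Agent.P238T
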