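import Vale.Agent.P238T.Spec
import Vale.Agent.P238T.Key
import Vale.Agent.P238T.Match
import Vale.Agent.P238.Code
import Mathlib.Tactic

/-! The bound at one choice of parameters, from the parts. -/

namespace Vale.Agent.P238T

open Vale.Agent.P238 Finset
open scoped ENNReal

/-- A linear inequality between energies passes to functions with values in ℓ¹. -/
lemma lift_l1T {G β : Type*} [Fintype G] [Add G] [Fintype β] (T : G) (v : β → G)
    (L L' : List G) (cv cL cZ : ℝ) (hv : 0 ≤ cv) (hL : 0 ≤ cL) (hZ : 0 ≤ cZ)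
    (h : ∀ f : G → ℝ, energy f T ≤ cv * ∑ b, energy f (v b) + cL * (L.map (energy f)).sum +
      cZ * (L'.map (energy f)).sum)
    (f : G → lp (fun _ : ℕ => ℝ) 1) :
    energyL f T ≤ cv * ∑ b, energyL f (v b) + cL * (L.map (energyL f)).sum +
      cZ * (L'.map (energyL f)).sum := by
  have hlist : ∀ (s : Finset ℕ) (L : List G),
      ∑ i ∈ s, (L.map (energy fun x => f x i)).sum ≤ (L.map (energyL f)).sum := by
    intro s L
    induction L with
    | nil => simp
    | cons g L ih =>
      simp only [List.map_cons, List.sum_cons, sum_add_distrib]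
      exact add_le_add (sum_energy_le f g s) ih
  have heq : energyL f T = ∑' i, energy (fun x => f x i) T := by
    simp only [energy, energyL]
    rw [Summable.tsum_finsetSum]
    · exact sum_congr rfl fun x _ => by simpa using lp_norm_one (f (x + T) - f x)
    · exact fun x _ => by simpa using lp_summable_one (f (x + T) - f x)
  rw [heq]
  refine Real.tsum_le_of_sum_le (fun i => sum_nonneg fun x _ => abs_nonneg _) fun s =>
    (sum_le_sum fun i _ => h _).trans ?_
  simp only [sum_add_distrib, ← mul_sum]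
  refine add_le_add (add_le_add (mul_le_mul_of_nonneg_left ?_ hv)
    (mul_le_mul_of_nonneg_left (hlist s L) hL)) (mul_le_mul_of_nonneg_left (hlist s L') hZ)
  rw [sum_comm]
  exact sum_le_sum fun b _ => sum_energy_le f _ s

theorem coreT (hA : PoincareStmt) (hD : CostStmt) : CoreStmt := by
  intro K k g q S E d n m hK hd hg hq hm hco hEK hS hE hcard hn f A B hA0 hB0 hf
  classical
  have : NeZero K := ⟨by omega⟩
  have : NeZero q := ⟨by omega⟩
  set Q := ∏ y, m y with hQ
  have : NeZero Q := ⟨(prod_pos fun y _ => by have := (hm y).1; omega).ne'⟩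
  have hmQ : ∀ y, m y ∣ Q := fun y => dvd_prod_of_mem _ (mem_univ y)
  have hmod : Moduli m Q q E :=
    ⟨fun y => (hm y).1, fun y => (hm y).2, hmQ, hco, hEK⟩
  have hS0 : 0 < S := lt_of_le_of_lt (Nat.zero_le _) hS
  have hP0 : 0 < g ^ k := Nat.pow_pos hg
  have hE0 : 0 < E := by rw [hE]; positivity
  obtain ⟨cd, hcd⟩ := exists_code (Sy := J (K + K) k × Fin q) d hd hcard
  set x0 : Fin (K + 1) := 0
  set n0 := nSlots (K + K) E k with hn0
  set z : List Bool := List.replicate (n - n0 * (64 * d)) false with hz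
  let W : (J (K + K) k → ZMod Q) → Fin n → Bool := fun φ =>
    toWord n (wordT m q E x0 k cd φ ++ z)
  have hlen : ∀ φ : J (K + K) k → ZMod Q, (wordT m q E x0 k cd φ ++ z).length = n := by
    intro φ
    simp [wordT, length_code, z, ← hn0]
    omega
  let F : (J (K + K) k → ZMod Q) → lp (fun _ : ℕ => ℝ) 1 := fun φ => f (W φ)
  have hWED : ∀ φ ψ, wordED (W φ) (W ψ) =
      ED (wordT m q E x0 k cd φ ++ z) (wordT m q E x0 k cd ψ ++ z) := by
    intro φ ψ
    simp only [wordED, W, ofFn_toWord (hlen _)]
  have hup : ∀ φ ψ, ‖F φ - F ψ‖ ≤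
      A * ED (wordT m q E x0 k cd φ) (wordT m q E x0 k cd ψ) := by
    intro φ ψ
    refine ((hf _ _).1).trans (mul_le_mul_of_nonneg_left ?_ hA0)
    rw [hWED]
    have := ED_append (wordT m q E x0 k cd φ) z (wordT m q E x0 k cd ψ) z
    rw [ED_self] at this
    exact_mod_cast this
  let zs : List (J (K + K) k → ZMod Q) :=
    (univ : Finset (J (K + K) k)).toList.map fun j => Pi.single j (m (leafTy k x0 j) : ZMod Q)
  -- the inequality
  have key := lift_l1T (Tv k : J (K + K) k → ZMod Q)
    (fun b : J (K + K) k × ZMod Q => Pi.single b.1 b.2) (gensT k) zs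
    (4 / (Q * (g ^ k : ℕ))) (4 * (S : ℝ) ^ 2) (4 * (Q : ℝ) ^ 2) (by positivity) (by positivity)
    (by positivity) (fun u => by
      have h := hA (Tv k : J (K + K) k → ZMod Q) (gensT k) zs (g ^ k) S hP0 (fun kk hkk => by
        by_cases hz' : ∀ j, (m (leafTy k x0 j) : ZMod Q) * kk j = 0
        · rcases keyT m (fun y => (hm y).2) (fun y => (hm y).1) hco hS k x0 kk hz' hkk with h | h
          · exact Or.inl h
          · exact Or.inr (Or.inl h)
        · push Not at hz'
          obtain ⟨j, hj⟩ := hz'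
          refine Or.inr (Or.inr ⟨Pi.single j (m (leafTy k x0 j) : ZMod Q),
            List.mem_map.2 ⟨j, mem_toList.2 (mem_univ j), rfl⟩, ?_⟩)
          simpa [pair, Pi.single_apply, mul_comm] using hj) u
      refine h.trans (le_of_eq ?_)
      rw [Fintype.sum_prod_type]
      ring) F
  set G : ℝ := (Fintype.card (J (K + K) k → ZMod Q) : ℝ) with hG
  have hG0 : 0 < G := Nat.cast_pos.2 Fintype.card_pos
  set M0 : ℝ := A * G * (2 * (64 * d) * n0) with hM0
  -- resampling
  have hres : ∑ b : J (K + K) k × ZMod Q, energyL F (Pi.single b.1 b.2) ≤ Q * M0 := by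
    rw [Fintype.sum_prod_type, sum_comm]
    calc _ ≤ ∑ _c : ZMod Q, M0 := by
          refine sum_le_sum fun c _ => ?_
          simp only [energyL]
          rw [sum_comm]
          calc _ ≤ ∑ _x : J (K + K) k → ZMod Q, A * (2 * (64 * d) * n0 : ℝ) := by
                refine sum_le_sum fun φ _ => ?_
                refine (sum_le_sum fun j _ => hup _ _).trans ?_
                rw [← mul_sum]
                refine mul_le_mul_of_nonneg_left ?_ hA0
                have := (hD m E hE0 hmQ x0 k cd φ).1 (fun _ => c)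
                exact_mod_cast this
            _ = _ := by
                rw [sum_const, card_univ, nsmul_eq_mul, hM0]
                ring
      _ = _ := by rw [sum_const, card_univ, ZMod.card, nsmul_eq_mul]
  -- shifts
  have hgen : (E : ℝ) * ((gensT k).map (energyL F)).sum ≤ k * M0 := by
    have h2 : ∀ L : List (J (K + K) k → ZMod Q), (L.map (energyL F)).sum ≤
        A * ∑ φ, (((L.map fun h =>
          ED (wordT m q E x0 k cd (φ + h)) (wordT m q E x0 k cd φ)).sum : ℕ) : ℝ) := by
      intro L
      induction L with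
      | nil => simp
      | cons h L ih =>
        simp only [List.map_cons, List.sum_cons, Nat.cast_add, sum_add_distrib, mul_add]
        refine add_le_add ?_ ih
        rw [energyL, mul_sum]
        exact sum_le_sum fun φ _ => hup _ _
    refine (mul_le_mul_of_nonneg_left (h2 _) (Nat.cast_nonneg E)).trans ?_
    rw [mul_left_comm, mul_sum]
    calc _ ≤ A * ∑ _φ : J (K + K) k → ZMod Q, ((2 * (64 * d) * k * n0 : ℕ) : ℝ) := by
          refine mul_le_mul_of_nonneg_left (sum_le_sum fun φ _ => ?_) hA0
          exact_mod_cast (hD m E hE0 hmQ x0 k cd φ).2.1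
      _ = _ := by
          rw [sum_const, card_univ, nsmul_eq_mul, hM0]
          push_cast
          ring
  -- invisible translations
  have hzero : (zs.map (energyL F)).sum = 0 := by
    refine List.sum_eq_zero fun v hv => ?_
    obtain ⟨h, hh, rfl⟩ := List.mem_map.1 hv
    obtain ⟨j, -, rfl⟩ := List.mem_map.1 hh
    refine sum_eq_zero fun φ _ => ?_
    have := ((hD m E hE0 hmQ x0 k cd φ).2.2.1 j)
    simp only [F, W, wordT, this, sub_self, norm_zero]
  -- the far pairs
  have hlow : G * ((n0 * (64 * d) : ℕ) : ℝ) ≤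
      1024 * 8 ^ k * B * energyL F (Tv k : J (K + K) k → ZMod Q) := by
    rw [energyL, mul_sum]
    calc _ = ∑ _φ : J (K + K) k → ZMod Q, ((n0 * (64 * d) : ℕ) : ℝ) := by
          rw [sum_const, card_univ, nsmul_eq_mul]
      _ ≤ _ := by
          refine sum_le_sum fun φ _ => ?_
          have hne : ∀ p, p + 1 < n0 → symbT m q E x0 k (φ + Tv k) p ≠
              symbT m q E x0 k (φ + Tv k) (p + 1) := fun p hp heq =>
            (hD m E hE0 hmQ x0 k cd (φ + Tv k)).2.2.2 p hp (congrArg Prod.fst heq)
          have hT : ¬ (m x0 : ℤ) ∣ 1 := by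
            intro h
            have := Int.eq_one_of_dvd_one (Int.natCast_nonneg _) h
            have := (hm x0).1
            omega
          have h1 := ed_lower d n0 (8 ^ k) cd hd hcd _ (symbT m q E x0 k φ) hne
            (fun M hM => matchT hmod (by omega) hE0 x0 φ (φ + Tv k) 1 hT (by simp) M hM) z
          have h2 : ((n0 * (64 * d) : ℕ) : ℝ) ≤
              ((1024 * 8 ^ k * ED (wordT m q E x0 k cd (φ + Tv k) ++ z)
                (wordT m q E x0 k cd φ ++ z) : ℕ) : ℝ) := Nat.cast_le.2 h1
          refine h2.trans ?_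
          rw [mul_assoc _ B, Nat.cast_mul, ← hWED]
          push_cast
          exact mul_le_mul_of_nonneg_left (hf _ _).2 (by positivity)
  have hP : (0 : ℝ) < (g ^ k : ℕ) := Nat.cast_pos.2 hP0
  have hQ0 : (0 : ℝ) < Q := Nat.cast_pos.2 (NeZero.pos Q)
  have hEr : (E : ℝ) = (g ^ k : ℕ) * (S : ℝ) ^ 2 := by rw [hE]; push_cast; ring
  set P : ℝ := ((g ^ k : ℕ) : ℝ) with hPdef
  set LE := energyL F (Tv k : J (K + K) k → ZMod Q)
  set R1 := ∑ b : J (K + K) k × ZMod Q, energyL F (Pi.single b.1 b.2)
  set R3 := ((gensT k).map (energyL F)).sum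
  have t1 : 4 / ((Q : ℝ) * P) * R1 ≤ 4 / P * M0 := by
    calc _ ≤ 4 / ((Q : ℝ) * P) * (Q * M0) := mul_le_mul_of_nonneg_left hres (by positivity)
      _ = _ := by field_simp
  have t3 : 4 * (S : ℝ) ^ 2 * R3 ≤ 4 / P * (k * M0) := by
    calc 4 * (S : ℝ) ^ 2 * R3 = 4 / P * ((E : ℝ) * R3) := by rw [hEr]; field_simp
      _ ≤ _ := mul_le_mul_of_nonneg_left hgen (by positivity)
  have hall : LE ≤ 4 / P * ((k + 1) * M0) := by
    rw [hzero, mul_zero, add_zero] at key
    calc _ ≤ _ := key
      _ ≤ 4 / P * M0 + 4 / P * (k * M0) := add_le_add t1 t3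
      _ = _ := by ring
  have hfin : G * ((n0 * (64 * d) : ℕ) : ℝ) * P ≤
      1024 * 8 ^ k * B * (4 * ((k + 1) * M0)) := by
    calc _ ≤ 1024 * 8 ^ k * B * LE * P := by gcongr
      _ ≤ 1024 * 8 ^ k * B * (4 / P * ((k + 1) * M0)) * P := by gcongr
      _ = _ := by field_simp
  have hpos : 0 < G * ((n0 * (64 * d) : ℕ) : ℝ) := by
    have := nSlots_pos (NeZero.pos (K + K)) hE0 k
    have : 0 < n0 * (64 * d) := Nat.mul_pos this (by omega)
    exact mul_pos hG0 (Nat.cast_pos.2 this)
  refine le_of_mul_le_mul_left (hfin.trans (le_of_eq ?_)) hpos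
  rw [hM0]
  push_cast
  ring

end Vale.Agent.P238T
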