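import Vale.Agent.P238T.Spec
import Vale.Agent.P238T.Match
import Vale.Agent.P238.Cost
import Mathlib.Tactic

/-! Part D: the cost of resampling a leaf, of a block shift and of an invisible translation. -/

namespace Vale.Agent.P238T

open Vale.Agent.P238 Finset

variable {K Q : ℕ} [NeZero K] {E : ℕ}

variable (K Q E) in
/-- The leaf at slot `p`. -/
def labT (l p : ℕ) : J (K + K) l := (slotT (K := K) (Q := Q) E l 0 p).1

variable (K Q E) in
/-- The translation accumulated at slot `p`. -/
def offT (l p : ℕ) : ZMod Q := (slotT (K := K) (Q := Q) E l 0 p).2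

/-- The recursion for `slotT`, at given repetition and child. -/
theorem slotT_succ (l : ℕ) (φ : J (K + K) (l + 1) → ZMod Q) (p e : ℕ) (i : Fin (K + K))
    (hi : p / nSlots (K + K) E l % (K + K) = i)
    (he : p / ((K + K) * nSlots (K + K) E l) = e) :
    slotT E (l + 1) φ p =
      (Fin.cons i (slotT E l (fun j => φ (Fin.cons i j) + (e : ZMod Q) * Tv l j)
          (p % nSlots (K + K) E l)).1,
        (slotT E l (fun j => φ (Fin.cons i j) + (e : ZMod Q) * Tv l j)
          (p % nSlots (K + K) E l)).2) := by
  have h : (⟨p / nSlots (K + K) E l % (K + K), Nat.mod_lt _ (NeZero.pos (K + K))⟩ :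
      Fin (K + K)) = i := Fin.ext hi
  subst he
  subst h
  rfl

theorem slotT_eq : ∀ (l : ℕ) (φ : J (K + K) l → ZMod Q) (p : ℕ),
    slotT E l φ p = (labT K Q E l p, φ (labT K Q E l p) + offT K Q E l p)
  | 0, φ, p => by simp [slotT, labT, offT]
  | l + 1, φ, p => by
    set i : Fin (K + K) :=
      ⟨p / nSlots (K + K) E l % (K + K), Nat.mod_lt _ (NeZero.pos (K + K))⟩ with hi
    set e := p / ((K + K) * nSlots (K + K) E l) with he
    simp only [labT, offT]
    rw [slotT_succ l φ p e i rfl rfl, slotT_succ l 0 p e i rfl rfl,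
      slotT_eq l (fun j => φ (Fin.cons i j) + (e : ZMod Q) * Tv l j),
      slotT_eq l (fun j => (0 : J (K + K) (l + 1) → ZMod Q) (Fin.cons i j) + (e : ZMod Q) * Tv l j)]
    simp only [Pi.zero_apply, zero_add]
    exact congrArg _ (add_assoc _ _ _)

/-- The shift by one repetition. -/
theorem slotT_shift (l : ℕ) (φ : J (K + K) (l + 1) → ZMod Q) (p : ℕ)
    (hc : 0 < nSlots (K + K) E l) :
    slotT E (l + 1) (φ + (av l : J (K + K) (l + 1) → ZMod Q)) p =
      slotT E (l + 1) φ (p + (K + K) * nSlots (K + K) E l) := by
  set c := nSlots (K + K) E l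
  have h1 : (p + (K + K) * c) / c = p / c + (K + K) := Nat.add_mul_div_right _ _ hc
  have h2 : (p + (K + K) * c) / c % (K + K) = p / c % (K + K) := by rw [h1, Nat.add_mod_right]
  have h3 : (p + (K + K) * c) / ((K + K) * c) = p / ((K + K) * c) + 1 :=
    Nat.add_div_right _ (Nat.mul_pos (NeZero.pos (K + K)) hc)
  have h4 : (p + (K + K) * c) % c = p % c := Nat.add_mul_mod_self_right p (K + K) c
  rw [slotT_succ l φ (p + (K + K) * c) (p / ((K + K) * c) + 1)
      ⟨p / c % (K + K), Nat.mod_lt _ (NeZero.pos (K + K))⟩ h2 h3,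
    slotT_succ l _ p (p / ((K + K) * c)) ⟨p / c % (K + K), Nat.mod_lt _ (NeZero.pos (K + K))⟩
      rfl rfl, h4]
  have hf : ∀ i : Fin (K + K),
      (fun j : J (K + K) l => (φ + (av l : J (K + K) (l + 1) → ZMod Q)) (Fin.cons i j) +
        ((p / ((K + K) * c) : ℕ) : ZMod Q) * Tv l j) =
      fun j : J (K + K) l => φ (Fin.cons i j) + ((p / ((K + K) * c) + 1 : ℕ) : ZMod Q) * Tv l j := by
    intro i
    funext j
    simp only [Pi.add_apply, av, Fin.tail_cons]
    push_cast
    ring
  rw [hf]

/-- The leaf at neighbouring slots differs. -/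
theorem labT_ne_succ (hE : 0 < E) : ∀ (l p : ℕ), p + 1 < nSlots (K + K) E l →
    labT K Q E l p ≠ labT K Q E l (p + 1)
  | 0, p, h => by simp [nSlots] at h
  | l + 1, p, h => by
    have hN : 2 ≤ K + K := by have := NeZero.pos K; omega
    intro heq
    simp only [labT] at heq
    rw [slotT_succ l _ p _ ⟨p / nSlots (K + K) E l % (K + K), Nat.mod_lt _ (by omega)⟩ rfl rfl,
      slotT_succ l _ (p + 1) _
        ⟨(p + 1) / nSlots (K + K) E l % (K + K), Nat.mod_lt _ (by omega)⟩ rfl rfl,
      slotT_eq l, slotT_eq l] at heq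
    dsimp only at heq
    obtain ⟨hi, hr⟩ := Fin.cons_inj.1 heq
    have hi' := congrArg Fin.val hi
    simp only at hi'
    set c := nSlots (K + K) E l with hc
    have hc0 : 0 < c := nSlots_pos (by omega) hE l
    rcases Nat.lt_or_ge (p % c + 1) c with h1 | h1
    · have hm : (p + 1) % c = p % c + 1 := by
        rw [Nat.add_mod]
        rcases Nat.lt_or_ge 1 c with h2 | h2
        · rw [Nat.mod_eq_of_lt h2, Nat.mod_eq_of_lt h1]
        · omega
      rw [hm] at hr
      exact labT_ne_succ hE l (p % c) (hc ▸ h1) hr
    · have hp := Nat.mod_lt p hc0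
      have hd : (p + 1) / c = p / c + 1 := by
        have := Nat.div_add_mod p c
        rw [show p + 1 = c * (p / c + 1) by rw [Nat.mul_succ]; omega,
          Nat.mul_div_cancel_left _ hc0]
      rw [hd] at hi'
      have hk := Nat.mod_lt (p / c) (show 0 < K + K by omega)
      rcases Nat.lt_or_ge (p / c % (K + K) + 1) (K + K) with h2 | h2
      · rw [Nat.add_mod, Nat.mod_eq_of_lt (by omega : 1 < K + K), Nat.mod_eq_of_lt h2] at hi'
        omega
      · rw [Nat.add_mod, Nat.mod_eq_of_lt (by omega : 1 < K + K),
          show p / c % (K + K) + 1 = K + K by omega, Nat.mod_self] at hi'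
        omega

variable {q : ℕ} [NeZero q] {m : Fin (K + 1) → ℕ}

theorem symbT_eq (x : Fin (K + 1)) (l : ℕ) (φ : J (K + K) l → ZMod Q) (p : ℕ) :
    symbT m q E x l φ p = (labT K Q E l p,
      Fin.ofNat q ((φ (labT K Q E l p) + offT K Q E l p).val % m (leafTy l x (labT K Q E l p)))) := by
  simp [symbT, slotT_eq]

/-- Changing the phase of one leaf only touches its slots. -/
theorem ED_resampleT {w : ℕ} (x : Fin (K + 1)) (l : ℕ)
    (cd : J (K + K) l × Fin q → Fin w → Bool) (φ : J (K + K) l → ZMod Q)
    (c : J (K + K) l → ZMod Q) :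
    ∑ j, ED (wordT m q E x l cd (φ + Pi.single j (c j))) (wordT m q E x l cd φ) ≤
      2 * w * nSlots (K + K) E l := by
  classical
  have h : ∀ j, ED (wordT m q E x l cd (φ + Pi.single j (c j))) (wordT m q E x l cd φ) ≤
      2 * w * ((range (nSlots (K + K) E l)).filter fun p => labT K Q E l p = j).card := by
    intro j
    refine (ED_code_le cd _ _ _).trans (Nat.mul_le_mul_left _ (card_le_card ?_))
    intro p hp
    simp only [mem_filter] at hp ⊢
    refine ⟨hp.1, ?_⟩
    by_contra hne
    exact hp.2 (by rw [symbT_eq, symbT_eq, Pi.add_apply, Pi.single_eq_of_ne hne, add_zero])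
  refine (sum_le_sum fun j _ => h j).trans (le_of_eq ?_)
  rw [← mul_sum]
  congr 1
  rw [← card_eq_sum_card_fiberwise (fun p _ => mem_univ (labT K Q E l p)), card_range]

/-- A translation by the modulus of a leaf is invisible. -/
theorem symbT_invisible [NeZero Q] (hmQ : ∀ y, m y ∣ Q) (x : Fin (K + 1)) (l : ℕ)
    (φ : J (K + K) l → ZMod Q) (j : J (K + K) l) :
    symbT m q E x l (φ + Pi.single j (m (leafTy l x j) : ZMod Q)) = symbT m q E x l φ := by
  funext p
  rw [symbT_eq, symbT_eq]
  by_cases h : labT K Q E l p = j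
  · subst h
    simp only [Pi.add_apply, Pi.single_eq_same]
    rw [add_right_comm, ZMod.val_add, Nat.mod_mod_of_dvd _ (hmQ _), ZMod.val_natCast]
    rw [Nat.add_mod, Nat.mod_mod_of_dvd _ (hmQ _), Nat.mod_self, add_zero, Nat.mod_mod]
  · simp [h]

/-- All block shifts together cost at most `2 l / E` of the word length. -/
theorem ED_gensT (hE : 0 < E) : ∀ (l : ℕ) (x : Fin (K + 1)) {w : ℕ}
    (cd : J (K + K) l × Fin q → Fin w → Bool) (φ : J (K + K) l → ZMod Q),
    E * ((gensT l).map fun g =>
      ED (wordT m q E x l cd (φ + g)) (wordT m q E x l cd φ)).sum ≤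
      2 * w * l * nSlots (K + K) E l
  | 0, x, w, cd, φ => by simp [gensT]
  | l + 1, x, w, cd, φ => by
    classical
    set c := nSlots (K + K) E l with hc
    have hc0 : 0 < c := nSlots_pos (NeZero.pos (K + K)) hE l
    let cd' : Fin (K + K) → J (K + K) l × Fin q → Fin w → Bool :=
      fun i s => cd (Fin.cons i s.1, s.2)
    let sub : ℕ → Fin (K + K) → (J (K + K) (l + 1) → ZMod Q) → J (K + K) l → ZMod Q :=
      fun e i φ j => φ (Fin.cons i j) + (e : ZMod Q) * Tv l j
    have hblock : ∀ (φ : J (K + K) (l + 1) → ZMod Q) (e : ℕ) (i : Fin (K + K)),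
        code cd c (fun p => symbT m q E x (l + 1) φ ((e * (K + K) + i) * c + p)) =
          wordT m q E (ty x i) l (cd' i) (sub e i φ) := by
      intro φ e i
      simp only [wordT, code, ← hc]
      apply List.flatMap_congr
      intro p hp
      congr 1
      show cd _ = cd _
      congr 1
      have hp' : p < c := List.mem_range.1 hp
      rw [symbT_child m x φ _ i e (by
        rw [← hc, Nat.add_comm, Nat.add_mul_div_right _ _ hc0, Nat.div_eq_of_lt hp', zero_add]),
        ← hc, Nat.add_comm _ p, Nat.add_mul_mod_self_right, Nat.mod_eq_of_lt hp']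
    have htop : E * ED (wordT m q E x (l + 1) cd (φ + (av l : J (K + K) (l + 1) → ZMod Q)))
        (wordT m q E x (l + 1) cd φ) ≤ 2 * w * nSlots (K + K) E (l + 1) := by
      have h := ED_code_shift cd (nSlots (K + K) E (l + 1)) ((K + K) * c)
        (symbT m q E x (l + 1) φ) (symbT m q E x (l + 1) (φ + (av l : J (K + K) (l + 1) → ZMod Q)))
        (by rw [nSlots_succ, ← hc, Nat.mul_assoc]; exact Nat.le_mul_of_pos_left _ hE)
        (fun p _ => by
          simp only [symbT]
          rw [slotT_shift l φ p hc0])
      refine (Nat.mul_le_mul_left E h).trans (le_of_eq ?_)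
      rw [nSlots_succ]
      ring
    let emb : Fin (K + K) → (J (K + K) l → ZMod Q) → J (K + K) (l + 1) → ZMod Q :=
      fun i g j => if j 0 = i then g (Fin.tail j) else 0
    have hinner : ∀ (i : Fin (K + K)) (g : J (K + K) l → ZMod Q),
        ED (wordT m q E x (l + 1) cd (φ + emb i g)) (wordT m q E x (l + 1) cd φ) ≤
          ∑ e ∈ range E, ED (wordT m q E (ty x i) l (cd' i) (sub e i φ + g))
            (wordT m q E (ty x i) l (cd' i) (sub e i φ)) := by
      intro i g
      simp only [wordT, nSlots_succ, ← hc]
      refine (ED_code_blocks cd (E * (K + K)) c _ _).trans ?_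
      have hsplit : ∀ f : ℕ → ℕ,
          ∑ t ∈ range (E * (K + K)), f t =
            ∑ e ∈ range E, ∑ i' : Fin (K + K), f (e * (K + K) + i') := by
        intro f
        clear * - f
        induction E with
        | zero => simp
        | succ E ih =>
          rw [Nat.succ_mul, sum_range_add, ih, sum_range_succ,
            Fin.sum_univ_eq_sum_range (fun i => f (E * (K + K) + i)) (K + K)]
      rw [hsplit]
      refine sum_le_sum fun e _ => ?_
      rw [Finset.sum_eq_single i]
      · refine le_of_eq ?_
        rw [hblock, hblock]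
        have hs : sub e i (φ + emb i g) = sub e i φ + g := by
          funext j
          simp [sub, emb, add_right_comm]
        simp only [wordT, hs, ← hc]
      · intro i' _ hne
        rw [hblock, hblock]
        have hs : sub e i' (φ + emb i g) = sub e i' φ := by
          funext j
          simp [sub, emb, hne]
        rw [hs, ED_self]
      · simp
    rw [gensT, List.map_cons, List.sum_cons, Nat.mul_add, List.map_flatMap]
    have hrest : E * (((List.finRange (K + K)).flatMap fun i =>
        ((gensT l).map (emb i)).map fun g =>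
          ED (wordT m q E x (l + 1) cd (φ + g)) (wordT m q E x (l + 1) cd φ))).sum ≤
        2 * w * l * nSlots (K + K) E (l + 1) := by
      rw [List.flatMap_def, List.sum_flatten, List.map_map, ← List.ofFn_eq_map,
        List.sum_ofFn, mul_sum]
      have hi : ∀ i : Fin (K + K), E * ((gensT l).map fun g =>
          ED (wordT m q E x (l + 1) cd (φ + emb i g)) (wordT m q E x (l + 1) cd φ)).sum ≤
          E * (2 * w * l * c) := by
        intro i
        calc _ ≤ E * ((gensT l).map fun g => ∑ e ∈ range E,
              ED (wordT m q E (ty x i) l (cd' i) (sub e i φ + g))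
                (wordT m q E (ty x i) l (cd' i) (sub e i φ))).sum :=
              Nat.mul_le_mul_left E (List.sum_le_sum fun g _ => hinner i g)
          _ = ∑ e ∈ range E, E * ((gensT l).map fun g =>
              ED (wordT m q E (ty x i) l (cd' i) (sub e i φ + g))
                (wordT m q E (ty x i) l (cd' i) (sub e i φ))).sum := by
              rw [← mul_sum]
              congr 1
              generalize gensT l = L
              induction L with
              | nil => simp
              | cons g L ih => simp [ih, sum_add_distrib]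
          _ ≤ ∑ _e ∈ range E, 2 * w * l * c :=
              sum_le_sum fun e _ => ED_gensT hE l (ty x i) (cd' i) (sub e i φ)
          _ = E * (2 * w * l * c) := by simp
      calc _ ≤ ∑ _i : Fin (K + K), E * (2 * w * l * c) := by
            refine sum_le_sum fun i _ => ?_
            simpa [Function.comp_def] using hi i
        _ = 2 * w * l * nSlots (K + K) E (l + 1) := by
            simp [nSlots_succ, ← hc]
            ring
    refine (Nat.add_le_add htop hrest).trans (le_of_eq ?_)
    ring

/-- Part D. -/
theorem costT : CostStmt := by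
  intro K _ Q _ q _ w m E hE hmQ x l cd φ
  refine ⟨ED_resampleT x l cd φ, ED_gensT hE l x cd φ, symbT_invisible hmQ x l φ, fun p hp h => ?_⟩
  rw [symbT_eq, symbT_eq] at h
  exact labT_ne_succ hE l p hp h

end Vale.Agent.P238T
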