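import Vale.Agent.P238.Defs
import Mathlib.Data.Fin.SuccPred
import Mathlib.Data.Fin.Tuple.Basic
import Mathlib.Data.Nat.GCD.Basic

/-!
Definitions for the lower bound exp(c √(log n log log n)) on the L1 distortion of edit distance
(P238). A block has `K + K` children; the drift of child `i` is a class of small order.
-/

namespace Vale.Agent.P238T

open Vale.Agent.P238

variable {K Q : ℕ}

/-- The type of child `i` of a node of type `x`: the first `K` children keep `x`, the others get
the `K` other types. -/
def ty (x : Fin (K + 1)) (i : Fin (K + K)) : Fin (K + 1) :=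
  Fin.addCases (fun _ => x) (fun j => x.succAbove j) i

/-- The type of a leaf below a node of type `x`. -/
def leafTy : (l : ℕ) → Fin (K + 1) → J (K + K) l → Fin (K + 1)
  | 0, x, _ => x
  | l + 1, x, j => leafTy l (ty x (j 0)) (Fin.tail j)

/-- The class exported by a block: the indicator of the leaves whose path only uses the first `K`
children. -/
def Tv : (l : ℕ) → J (K + K) l → ZMod Q
  | 0, _ => 1
  | l + 1, j => if (j 0 : ℕ) < K then Tv l (Fin.tail j) else 0

/-- The translation that shifts a block by one repetition. -/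
def av (l : ℕ) (j : J (K + K) (l + 1)) : ZMod Q := Tv l (Fin.tail j)

/-- Leaf and phase at slot `p` of a level-`l` block: in repetition `e` every child is translated
by `e` times its exported class. -/
def slotT [NeZero K] (E : ℕ) : (l : ℕ) → (J (K + K) l → ZMod Q) → ℕ → J (K + K) l × ZMod Q
  | 0, φ, _ => (Fin.elim0, φ Fin.elim0)
  | l + 1, φ, p =>
    let i : Fin (K + K) := ⟨p / nSlots (K + K) E l % (K + K),
      Nat.mod_lt _ (by have := NeZero.pos K; omega)⟩
    let r := slotT E l
      (fun j => φ (Fin.cons i j) + ((p / ((K + K) * nSlots (K + K) E l) : ℕ) : ZMod Q) * Tv l j)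
      (p % nSlots (K + K) E l)
    (Fin.cons i r.1, r.2)

/-- The symbol written at slot `p` of a block of type `x`: the leaf and its phase modulo the
modulus of its type. -/
def symbT [NeZero K] (m : Fin (K + 1) → ℕ) (q E : ℕ) [NeZero q] (x : Fin (K + 1)) (l : ℕ)
    (φ : J (K + K) l → ZMod Q) (p : ℕ) : J (K + K) l × Fin q :=
  ((slotT E l φ p).1, Fin.ofNat q ((slotT E l φ p).2.val % m (leafTy l x (slotT E l φ p).1)))

/-- The word of a level-`l` block of type `x`. -/
def wordT [NeZero K] (m : Fin (K + 1) → ℕ) (q E : ℕ) [NeZero q] {w : ℕ} (x : Fin (K + 1)) (l : ℕ)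
    (cd : J (K + K) l × Fin q → Fin w → Bool) (φ : J (K + K) l → ZMod Q) : List Bool :=
  code cd (nSlots (K + K) E l) (symbT m q E x l φ)

/-- The block shifts, over all blocks of all levels. -/
def gensT : (l : ℕ) → List (J (K + K) l → ZMod Q)
  | 0 => []
  | l + 1 => av l :: (List.finRange (K + K)).flatMap fun i =>
      (gensT l).map fun g j => if j 0 = i then g (Fin.tail j) else 0

/-- The properties required of the moduli. -/
structure Moduli (m : Fin (K + 1) → ℕ) (Q q E : ℕ) : Prop where
  two_le : ∀ x, 2 ≤ m x
  le_q : ∀ x, m x ≤ q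
  dvd_Q : ∀ x, m x ∣ Q
  coprime : ∀ x y, x ≠ y → (m x).Coprime (m y)
  E_lt : E < 2 ^ (K / 2)

end Vale.Agent.P238T
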