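import Vale.Agent.P238T.Spec
import Vale.Agent.P238.Cost
import Mathlib.NumberTheory.Chebyshev
import Mathlib.Analysis.Complex.ExponentialBounds

/-! Part E: parameters and the asymptotic bound exp(c √(log n log log n)) (P238). -/

namespace Vale.Agent.P238T

open Vale.Agent.P238 Real

/-- Number of levels at scale `s`. -/
def pk (s : ℕ) : ℕ := 2 ^ s
/-- The moduli are at most `2 ^ pσ s`. -/
def pσ (s : ℕ) : ℕ := 4 * s + 16
/-- The logarithm of the number of repetitions. -/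
def pe (s : ℕ) : ℕ := s * pk s + 2 * (pσ s * pk s + 1)
/-- Half the number of children. -/
def pK (s : ℕ) : ℕ := 2 * (pe s + 1)
/-- Code parameter. -/
def pd (s : ℕ) : ℕ := 8 * pk s ^ 2
/-- Word length at scale `s`. -/
def pn (s : ℕ) : ℕ := nSlots (pK s + pK s) (2 ^ pe s) (pk s) * (64 * pd s)

theorem one_le_pk (s : ℕ) : 1 ≤ pk s := Nat.one_le_two_pow

theorem succ_le_pk (s : ℕ) : s + 1 ≤ pk s := Nat.lt_two_pow_self

theorem pσ_le (s : ℕ) : pσ s ≤ 16 * pk s := by
  have := succ_le_pk s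
  rw [pσ]; omega

theorem pe_le (s : ℕ) : pe s ≤ 35 * pk s ^ 2 := by
  rw [pe]
  have := succ_le_pk s
  have := pσ_le s
  nlinarith

theorem two_pK_le (s : ℕ) : pK s + pK s ≤ 2 ^ (2 * s + 8) := by
  have h := pe_le s
  have : 2 ^ (2 * s + 8) = 256 * pk s ^ 2 := by
    rw [pk, ← pow_mul, pow_add]; ring
  have h1 : 1 ≤ pk s ^ 2 := Nat.one_le_pow _ _ (one_le_pk s)
  rw [pK]; omega

/-- Enough primes below `2 ^ pσ s`. -/
theorem primes_enough (s : ℕ) : pK s + 1 ≤ Nat.primeCounting (2 ^ pσ s) := by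
  set σ := pσ s with hσ
  set q := 2 ^ σ with hq
  have h1 : Nat.lcmUpto q ≤ q ^ Nat.primeCounting q := by
    rw [Nat.lcmUpto_eq_prod_pow_log, ← Nat.primesLE_card_eq_primeCounting]
    refine Finset.prod_le_pow_card _ _ _ fun p _ => Nat.pow_log_le_self p (by positivity)
  have h2 : 2 ^ q ≤ 2 ^ (σ + 1) * (2 ^ σ) ^ Nat.primeCounting q := by
    refine (Chebyshev.two_pow_le_mul_lcmUpto q).trans (Nat.mul_le_mul ?_ h1)
    rw [hq, pow_succ]
    have := Nat.one_le_two_pow (n := σ)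
    omega
  rw [← pow_mul, ← pow_add, Nat.pow_le_pow_iff_right (by norm_num)] at h2
  by_contra hc
  have h3 : σ * Nat.primeCounting q ≤ σ * pK s := Nat.mul_le_mul_left _ (by omega)
  have hk := one_le_pk s
  have h4 : σ * (pK s + 1) + 1 < q := by
    calc σ * (pK s + 1) + 1 ≤ 16 * pk s * (73 * pk s ^ 2) + 1 := by
          refine Nat.add_le_add_right (Nat.mul_le_mul (pσ_le s) ?_) 1
          have := pe_le s
          have : 1 ≤ pk s ^ 2 := Nat.one_le_pow _ _ hk
          rw [pK]; omega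
      _ < 65536 * pk s ^ 4 := by
          have : pk s ^ 3 ≤ pk s ^ 4 := Nat.pow_le_pow_right hk (by norm_num)
          have : 1 ≤ pk s ^ 3 := Nat.one_le_pow _ _ hk
          nlinarith
      _ = q := by
          rw [hq, hσ, pσ, pk, ← pow_mul, pow_add, Nat.mul_comm s 4]; norm_num; ring
  rw [Nat.mul_add, Nat.mul_one] at h4
  omega

/-- The moduli. -/
theorem exists_moduli (s : ℕ) : ∃ m : Fin (pK s + 1) → ℕ,
    (∀ x, 2 ≤ m x ∧ m x ≤ 2 ^ pσ s) ∧ ∀ x y, x ≠ y → (m x).Coprime (m y) := by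
  have h : pK s + 1 ≤ (Nat.primesLE (2 ^ pσ s)).card := by
    rw [Nat.primesLE_card_eq_primeCounting]; exact primes_enough s
  set F := (Nat.primesLE (2 ^ pσ s)).orderEmbOfCardLe h
  have hF : ∀ x, F x ≤ 2 ^ pσ s ∧ (F x).Prime := fun x =>
    Nat.mem_primesLE.1 (Finset.orderEmbOfCardLe_mem _ h x)
  exact ⟨F, fun x => ⟨(hF x).2.two_le, (hF x).1⟩, fun x y hxy =>
    (Nat.coprime_primes (hF x).2 (hF y).2).2 fun he => hxy (F.injective he)⟩

theorem code_card (N k q d a : ℕ) (hN : N ≤ 2 ^ a) :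
    Fintype.card (J N k × Fin q) ^ 4 * (2 ^ 16 * d ^ 2) ≤
      ((2 ^ a) ^ k * q) ^ 4 * (2 ^ 16 * (2 ^ d) ^ 2) := by
  rw [Fintype.card_prod, Fintype.card_fun, Fintype.card_fin, Fintype.card_fin, Fintype.card_fin]
  have : d ≤ 2 ^ d := Nat.lt_two_pow_self.le
  gcongr

theorem code_holds (s : ℕ) :
    Fintype.card (J (pK s + pK s) (pk s) × Fin (2 ^ pσ s)) ^ 4 * (2 ^ 16 * pd s ^ 2) ≤
      2 ^ (40 * pd s) := by
  have h1 := succ_le_pk s
  have h2 := pσ_le s
  have h3 : pd s = 8 * pk s ^ 2 := rfl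
  refine (code_card _ (pk s) (2 ^ pσ s) (pd s) _ (two_pK_le s)).trans ?_
  generalize pk s = k at *
  generalize pσ s = σ at *
  generalize pd s = d at *
  rw [← pow_mul, ← pow_add, ← pow_mul, ← pow_mul, ← pow_add, ← pow_add]
  refine Nat.pow_le_pow_right (by norm_num) ?_
  subst h3
  nlinarith

theorem pn_gt (s : ℕ) : s < pn s := by
  have h1 : 1 ≤ nSlots (pK s + pK s) (2 ^ pe s) (pk s) :=
    nSlots_pos (by rw [pK]; omega) (Nat.two_pow_pos _) _
  calc s < pk s := succ_le_pk s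
    _ ≤ 64 * pd s := by rw [pd]; nlinarith [one_le_pk s]
    _ ≤ pn s := Nat.le_mul_of_pos_left _ h1

theorem pn_le (s : ℕ) : pn s ≤ 2 ^ (64 * (s + 1) * pk s ^ 2) := by
  have hd : 64 * pd s = 2 ^ (2 * s + 9) := by
    rw [pd, pk, ← pow_mul, pow_add]; ring
  calc pn s ≤ (2 ^ (pe s + (2 * s + 8))) ^ pk s * 2 ^ (2 * s + 9) := by
        rw [pn, nSlots, hd, pow_add 2 (pe s)]
        gcongr
        exact two_pK_le s
    _ = 2 ^ ((pe s + (2 * s + 8)) * pk s + (2 * s + 9)) := by rw [← pow_mul, ← pow_add]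
    _ ≤ _ := Nat.pow_le_pow_right (by norm_num) (by
        have hk := one_le_pk s
        have h1 : pe s + (2 * s + 8) ≤ 55 * (s + 1) * pk s := by
          rw [pe, pσ]; nlinarith
        have h2 : (2 * s + 9) ≤ 9 * (s + 1) * pk s ^ 2 := by
          have : 1 ≤ pk s ^ 2 := Nat.one_le_pow _ _ hk
          nlinarith
        nlinarith)

theorem succ_mul_le : ∀ k : ℕ, 256 ≤ k → 8192 * (k + 1) ≤ 2 ^ k := by
  intro k hk
  induction k, hk using Nat.le_induction with
  | base => norm_num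
  | succ k hk ih => rw [pow_succ]; omega

/-- The bound at scale `s`. -/
theorem scale_bound (h : CoreStmt) (s : ℕ) (hs : 8 ≤ s) (n : ℕ) (hn : pn s ≤ n)
    (f : (Fin n → Bool) → lp (fun _ : ℕ => ℝ) 1) (A B : ℝ) (hA : 0 ≤ A) (hB : 0 ≤ B)
    (hf : ∀ x y, ‖f x - f y‖ ≤ A * wordED x y ∧ (wordED x y : ℝ) ≤ B * ‖f x - f y‖) :
    (2 : ℝ) ^ ((s : ℝ) * pk s / 2) ≤ A * B := by
  obtain ⟨m, hm, hco⟩ := exists_moduli s
  have hk := one_le_pk s
  have hE : 2 ^ pe s = pk s ^ pk s * (2 ^ (pσ s * pk s + 1)) ^ 2 := by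
    rw [pe, pow_add, show pk s ^ pk s = 2 ^ (s * pk s) from (pow_mul 2 s (pk s)).symm,
      ← pow_mul, Nat.mul_comm 2 (_ + 1)]
  have hS : (2 ^ pσ s) ^ pk s < 2 ^ (pσ s * pk s + 1) := by
    rw [← pow_mul]; exact Nat.pow_lt_pow_right (by norm_num) (by omega)
  have h1 := h (pK s) (pk s) (pk s) (2 ^ pσ s) (2 ^ (pσ s * pk s + 1)) (2 ^ pe s) (pd s) n m
    (by rw [pK]; omega) (by rw [pd]; nlinarith) hk (Nat.two_pow_pos _) hm hco
    (by rw [pK]; exact Nat.pow_lt_pow_right (by norm_num) (by omega)) hS hE (code_holds s) hn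
    f A B hA hB hf
  have h2 : (8192 : ℝ) * (pk s + 1) ≤ 2 ^ pk s := by
    have : 256 ≤ pk s := le_trans (by norm_num) (Nat.pow_le_pow_right (by norm_num : 0 < 2) hs)
    exact_mod_cast succ_mul_le _ this
  have h3 : ((pk s ^ pk s : ℕ) : ℝ) = (2 : ℝ) ^ (((s : ℝ) - 4) * pk s) * 2 ^ (4 * pk s) := by
    rw [← Real.rpow_natCast 2 (4 * pk s), ← Real.rpow_add two_pos]
    push_cast
    rw [show ((pk s : ℕ) : ℝ) = (2 : ℝ) ^ s by simp [pk], ← pow_mul, ← Real.rpow_natCast]
    congr 1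
    push_cast [pk]
    ring
  have hAB0 : 0 ≤ A * B := mul_nonneg hA hB
  have h4 : (2 : ℝ) ^ (((s : ℝ) - 4) * pk s) * 2 ^ (4 * pk s) ≤ (A * B) * 2 ^ (4 * pk s) := by
    rw [← h3]
    refine h1.trans ?_
    calc (8192 : ℝ) * 8 ^ pk s * (pk s + 1) * (A * B)
        = (8192 * (pk s + 1)) * 8 ^ pk s * (A * B) := by ring
      _ ≤ 2 ^ pk s * 8 ^ pk s * (A * B) := by gcongr
      _ = _ := by rw [← mul_pow, pow_mul]; norm_num; ring
  refine le_trans ?_ (le_of_mul_le_mul_right h4 (by positivity))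
  refine Real.rpow_le_rpow_of_exponent_le one_le_two ?_
  have : (8 : ℝ) ≤ s := by exact_mod_cast hs
  nlinarith [show (0 : ℝ) ≤ pk s from Nat.cast_nonneg _]

attribute [local irreducible] pn

/-- Part E. -/
theorem mainT (h : CoreStmt) : MainStmt := by
  classical
  refine ⟨1 / 256, by norm_num, pn 8, fun n hn f A B hf => ?_⟩
  have hn1 : 1 ≤ n := le_trans (by omega) ((pn_gt 8).trans_le hn)
  obtain ⟨hA, hB⟩ : 0 ≤ A ∧ 0 ≤ B := by
    set x : Fin n → Bool := fun _ => false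
    set y : Fin n → Bool := fun _ => true
    have hpos : 0 < wordED x y := by
      refine Nat.pos_of_ne_zero fun h0 => ?_
      have hr : Reach 0 (List.ofFn x) (List.ofFn y) := h0 ▸ reach_ED (List.ofFn x) (List.ofFn y)
      have hxy : x = y := List.ofFn_injective hr
      exact Bool.noConfusion (congrFun hxy ⟨0, hn1⟩)
    have hp : (0 : ℝ) < wordED x y := Nat.cast_pos.2 hpos
    obtain ⟨hu, hl⟩ := hf x y
    have hnorm : 0 < ‖f x - f y‖ := by
      rcases (norm_nonneg (f x - f y)).lt_or_eq with h' | h'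
      · exact h'
      · rw [← h', mul_zero] at hl
        linarith
    exact ⟨le_of_lt (pos_of_mul_pos_left (hnorm.trans_le hu) hp.le),
      le_of_lt (pos_of_mul_pos_left (hp.trans_le hl) hnorm.le)⟩
  have h8 : 8 ≤ n := (pn_gt 8).le.trans hn
  set s := Nat.findGreatest (fun s => pn s ≤ n) n
  have hs8 : 8 ≤ s := Nat.le_findGreatest h8 hn
  have hsn : pn s ≤ n := Nat.findGreatest_spec (P := fun s => pn s ≤ n) h8 hn
  have hup : n < pn (s + 1) := by
    by_contra h'
    exact Nat.findGreatest_is_greatest (P := fun s => pn s ≤ n) (Nat.lt_succ_self s)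
      ((pn_gt s).trans_le hsn) (not_lt.1 h')
  refine le_trans ?_ (scale_bound h s hs8 n hsn f A B hA hB hf)
  have hk2 : pk (s + 1) = 2 * pk s := by rw [pk, pk, pow_succ, Nat.mul_comm]
  set K : ℝ := (s : ℝ) * pk s with hK
  have hs' : (8 : ℝ) ≤ s := by exact_mod_cast hs8
  have hlog : Real.log n ≤ 512 * s * (pk s : ℝ) ^ 2 := by
    have hn' : (n : ℝ) ≤ (2 : ℝ) ^ (64 * (s + 1 + 1) * pk (s + 1) ^ 2) := by
      have h' := Nat.cast_le (α := ℝ).2 (le_trans (le_of_lt hup) (pn_le (s + 1)))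
      rwa [Nat.cast_pow, Nat.cast_ofNat] at h'
    have h5 := Real.log_le_log (by exact_mod_cast (by omega : 0 < n)) hn'
    rw [Real.log_pow, hk2] at h5
    push_cast at h5
    have h6 : Real.log 2 ≤ 1 := by linarith [Real.log_two_lt_d9]
    refine h5.trans ((mul_le_of_le_one_right (by positivity) h6).trans ?_)
    have : (0 : ℝ) ≤ (pk s : ℝ) ^ 2 := by positivity
    nlinarith
  have hlog0 : 0 ≤ Real.log n := Real.log_natCast_nonneg n
  have hll : Real.log (Real.log n) ≤ 6 * s := by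
    rcases hlog0.lt_or_eq with h0 | h0
    · refine (Real.log_le_log h0 hlog).trans ?_
      rw [Real.log_mul (by positivity) (by positivity [one_le_pk s]), Real.log_mul (by norm_num)
        (by positivity)]
      have e1 : Real.log ((pk s : ℝ) ^ 2) = 2 * s * Real.log 2 := by
        rw [show ((pk s : ℕ) : ℝ) = (2 : ℝ) ^ s by simp [pk], ← pow_mul, Real.log_pow]
        push_cast; ring
      have e2 : Real.log (512 : ℝ) = 9 * Real.log 2 := by
        rw [show (512 : ℝ) = (2 : ℝ) ^ 9 by norm_num, Real.log_pow]; norm_num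
      have e3 := Real.log_le_sub_one_of_pos (show (0 : ℝ) < s by linarith)
      rw [e1, e2]
      have := Real.log_two_lt_d9
      nlinarith
    · rw [← h0, Real.log_zero]; positivity
  have hprod : Real.log n * Real.log (Real.log n) ≤ (64 * K) ^ 2 := by
    refine (mul_le_mul_of_nonneg_left hll hlog0).trans ?_
    refine (mul_le_mul_of_nonneg_right hlog (by positivity)).trans ?_
    rw [hK]
    have : (0 : ℝ) ≤ (s : ℝ) ^ 2 * (pk s : ℝ) ^ 2 := by positivity
    nlinarith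
  calc Real.exp (1 / 256 * √(Real.log n * Real.log (Real.log n)))
      ≤ Real.exp (K / 4) := by
        refine Real.exp_le_exp.2 ?_
        have hK0 : 0 ≤ K := by positivity
        have := Real.sqrt_le_iff.2 ⟨(by positivity : (0 : ℝ) ≤ 64 * K), hprod⟩
        linarith
    _ ≤ Real.exp (Real.log 2 * (K / 2)) := by
        refine Real.exp_le_exp.2 ?_
        have := Real.log_two_gt_d9
        have hK0 : 0 ≤ K := by positivity
        nlinarith
    _ = (2 : ℝ) ^ (K / 2) := by rw [Real.rpow_def_of_pos two_pos]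

end Vale.Agent.P238T
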