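import Vale.Agent.P238T.Defs
import Vale.Agent.P238.Analytic
import Vale.Agent.P238.Assembly

/-! The statements of the parts of the lower bound exp(c √(log n log log n)) (P238). These are
plain propositions; the parts prove them. -/

namespace Vale.Agent.P238T

open Vale.Agent.P238 Finset

/-- Part A: the inequality on `(ZMod Q)^J`. -/
def PoincareStmt : Prop :=
  ∀ {J : Type} [Fintype J] [DecidableEq J] {Q : ℕ} [NeZero Q] (T : J → ZMod Q)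
    (gs zs : List (J → ZMod Q)) (P S : ℕ), 0 < P →
    (∀ kk : J → ZMod Q, pair kk T ≠ 0 → P ≤ (univ.filter fun j => kk j ≠ 0).card ∨
      (∃ g ∈ gs, Q < S * nrm (pair kk g)) ∨ ∃ z ∈ zs, pair kk z ≠ 0) →
    ∀ f : (J → ZMod Q) → ℝ, energy f T ≤
      4 * ((∑ j, ∑ c : ZMod Q, energy f (Pi.single j c)) / (Q * P) +
        (S : ℝ) ^ 2 * (gs.map (energy f)).sum + (Q : ℝ) ^ 2 * (zs.map (energy f)).sum)

/-- Part D: the costs of the moves. -/
def CostStmt : Prop :=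
  ∀ {K : ℕ} [NeZero K] {Q : ℕ} [NeZero Q] {q : ℕ} [NeZero q] {w : ℕ} (m : Fin (K + 1) → ℕ)
    (E : ℕ), 0 < E → (∀ y, m y ∣ Q) → ∀ (x : Fin (K + 1)) (l : ℕ)
    (cd : J (K + K) l × Fin q → Fin w → Bool) (φ : J (K + K) l → ZMod Q),
    (∀ c : J (K + K) l → ZMod Q,
      ∑ j, ED (wordT m q E x l cd (φ + Pi.single j (c j))) (wordT m q E x l cd φ) ≤
        2 * w * nSlots (K + K) E l) ∧
    E * ((gensT l).map fun g =>
      ED (wordT m q E x l cd (φ + g)) (wordT m q E x l cd φ)).sum ≤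
        2 * w * l * nSlots (K + K) E l ∧
    (∀ j, symbT m q E x l (φ + Pi.single j (m (leafTy l x j) : ZMod Q)) = symbT m q E x l φ) ∧
    ∀ p, p + 1 < nSlots (K + K) E l → (symbT m q E x l φ p).1 ≠ (symbT m q E x l φ (p + 1)).1

/-- The bound at one choice of parameters (proved in Assembly from A, B, C, D and the code). -/
def CoreStmt : Prop :=
  ∀ (K k g q S E d n : ℕ) (m : Fin (K + 1) → ℕ), 2 ≤ K → 1 ≤ d → 0 < g → 0 < q →
    (∀ x, 2 ≤ m x ∧ m x ≤ q) → (∀ x y, x ≠ y → (m x).Coprime (m y)) → E < 2 ^ (K / 2) →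
    q ^ g < S → E = g ^ k * S ^ 2 →
    Fintype.card (J (K + K) k × Fin q) ^ 4 * (2 ^ 16 * d ^ 2) ≤ 2 ^ (40 * d) →
    nSlots (K + K) E k * (64 * d) ≤ n →
    ∀ (f : (Fin n → Bool) → lp (fun _ : ℕ => ℝ) 1) (A B : ℝ), 0 ≤ A → 0 ≤ B →
      (∀ x y, ‖f x - f y‖ ≤ A * wordED x y ∧ (wordED x y : ℝ) ≤ B * ‖f x - f y‖) →
      ((g ^ k : ℕ) : ℝ) ≤ 8192 * 8 ^ k * (k + 1) * (A * B)

/-- Part E: parameters and the limit. -/
def MainStmt : Prop :=
  ∃ c : ℝ, 0 < c ∧ ∃ n0 : ℕ, ∀ n ≥ n0, ∀ (f : (Fin n → Bool) → lp (fun _ : ℕ => ℝ) 1)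
    (A B : ℝ),
    (∀ x y, ‖f x - f y‖ ≤ A * wordED x y ∧ (wordED x y : ℝ) ≤ B * ‖f x - f y‖) →
    Real.exp (c * √(Real.log n * Real.log (Real.log n))) ≤ A * B

end Vale.Agent.P238T
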